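import Vale.Agent.P092BF.Defs

/-!
P092, block B5: the flag of a point of the target group.
-/

open Filter Topology MeasureTheory

namespace Vale.Agent.P092BF

variable {G' Y : Type} [Group G'] [MeasurableSpace G'] [PseudoMetricSpace Y] [MeasurableSpace Y]
  [MulAction G' Y]

/-- `fl x` is the flag of `x`; it is equivariant up to an error which is small far from the walls -/
structure Fg (len : G' → ℝ) {r : ℕ} (κ : G' → Fin r → ℝ) (fl : G' → Y) : Prop where
  meas : Measurable fl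
  le : ∀ y y' : Y, dist y y' ≤ 1
  eqv : ∃ A : ℝ, 1 ≤ A ∧ ∀ (s g u : G') (τ : ℝ), g ∈ Far κ τ →
    dist (s • fl g) (fl (s * g * u)) ≤ A * Real.exp (-τ + 2 * (len s + len u))

/-- far from the walls, `x u` sends every flag close to the flag of `x`, for most `u` -/
def Avg [TopologicalSpace G'] (μ' : Measure G') {r : ℕ} (κ : G' → Fin r → ℝ) (fl : G' → Y) : Prop :=
  ∀ V : Set G', IsCompact V → ∀ δ ε : ℝ, 0 < δ → 0 < ε → ∃ τ, ∀ x ∈ Far κ τ, ∀ y : Y,
    μ' {u | u ∈ V ∧ δ ≤ dist ((x * u) • y) (fl x)} ≤ ENNReal.ofReal ε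

end Vale.Agent.P092BF
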