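import Vale.Agent.P092BF.Tgt
import Vale.Agent.P092BF.Defs2
import Vale.Agent.P092TH.Win

/-!
P092, block B5: the boundary calculus.
-/

set_option linter.unusedSectionVars false
set_option linter.unusedVariables false

open Filter Topology ContinuousLinearMap MeasureTheory
open scoped InnerProductSpace CompactlySupported

namespace Vale.Agent.P092BF

open Vale.Agent.P092CP Vale.Agent.P092RD Vale.Agent.P092TH
open Vale.Agent.P092WN (Sys)
open Vale.Agent.P092.RC (Cm)

variable {G G' K H H₀ Y : Type} [Group G] [TopologicalSpace G] [IsTopologicalGroup G]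
  [LocallyCompactSpace G] [SecondCountableTopology G] [T2Space G] [MeasurableSpace G] [BorelSpace G]
  [Group G'] [TopologicalSpace G'] [IsTopologicalGroup G'] [LocallyCompactSpace G']
  [SecondCountableTopology G'] [T2Space G'] [MeasurableSpace G'] [BorelSpace G']
  [NormedAddCommGroup K] [InnerProductSpace ℂ K] [CompleteSpace K] {μ : Measure G}
  [μ.IsHaarMeasure] {μ' : Measure G'} [μ'.IsHaarMeasure] {W : Set (K →L[ℂ] K)}
  [NormedAddCommGroup H] [InnerProductSpace ℂ H] [CompleteSpace H] [NormedAddCommGroup H₀]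
  [InnerProductSpace ℂ H₀] {C : Cpl μ μ' W} {S : Sys G C.t.Γ H H₀} {p : H →L[ℂ] K} {z : ℕ → G}
  {len : G' → ℝ} {r : ℕ} {κ : G' → Fin r → ℝ} {l l' : Filter G} {fl : G' → Y}

section real

variable {a b : G' → ℝ} {e e' : K →L[ℂ] K} (ha : Bd fun x => (a x : ℂ))
  (h : SF C l (C.t.m fun x => (a x : ℂ)) e)
include ha h

theorem SF.smulR (c : ℝ) : SF C l (C.t.m fun x => ((c * a x : ℝ) : ℂ)) ((c : ℂ) • e) := by
  simpa only [← C.t.m_smul _ ha, Pi.smul_def, smul_eq_mul, ← Complex.ofReal_mul] using h.smul c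

variable (hb : Bd fun x => (b x : ℂ)) (h' : SF C l (C.t.m fun x => (b x : ℂ)) e')
include hb h'

theorem SF.addR : SF C l (C.t.m fun x => ((a x + b x : ℝ) : ℂ)) (e + e') := by
  simpa only [← C.t.m_add ha hb, Pi.add_def, ← Complex.ofReal_add] using h.add h'

theorem SF.mulR : SF C l (C.t.m fun x => ((a x * b x : ℝ) : ℂ)) (e * e') := by
  simpa only [← C.t.m_mul ha hb, Pi.mul_def, ← Complex.ofReal_mul] using h.mul h'

end real

section top

variable [TopologicalSpace Y] [CompactSpace Y] [MeasurableSpace Y] [BorelSpace Y] {E : POM Y K}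

theorem bd_c (f : C(Y, ℂ)) : Bd f := .of_le f.continuous.measurable f.norm_coe_le_norm

/-- a real function as a complex one -/
def cx (f : Y → ℝ) (hf : Continuous f) : C(Y, ℂ) := ⟨fun y => f y, Complex.continuous_ofReal.comp hf⟩

/-- `E` is the limit of the functions of the flag along the filter `l`, which leaves the walls -/
structure BF (C : Cpl μ μ' W) (l : Filter G) (κ : G' → Fin r → ℝ) (fl : G' → Y) (E : POM Y K) :
    Prop where
  sf : ∀ f : C(Y, ℂ), SF C l (C.t.m fun x => f (fl x)) (E.f f)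
  wall : Wall C l κ

theorem BF.mono (h : BF C l κ fl E) (hl : l' ≤ l) : BF C l' κ fl E :=
  ⟨fun f => (h.sf f).mono hl, fun τ => (h.wall τ).mono hl⟩

theorem BF.cc (h : BF C l κ fl E) (g : C_c(Y, ℝ)) :
    SF C l (C.t.m fun x => (g (fl x) : ℂ)) (E.f fun y => (g y : ℂ)) := h.sf (cx g g.continuous)

theorem Bnd.bf [MulAction G' Y] (h : Bnd C z κ fl E) : BF C (pf z) κ fl E :=
  ⟨fun f => sl_iff.1 (h.sl f), fun τ => sl_iff.1 (h.wall τ)⟩

end top

variable [MetricSpace Y] [CompactSpace Y] [MeasurableSpace Y] [BorelSpace Y] [MulAction G' Y]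
  [ContinuousSMul G' Y] {E : POM Y K}

theorem ev_aexp (A b : ℝ) {ε : ℝ} (hε : 0 < ε) : ∃ τ, A * Real.exp (-τ + b) ≤ ε :=
  (((Real.tendsto_exp_atBot.comp (tendsto_atBot_add_const_right atTop b
    tendsto_neg_atTop_atBot)).const_mul A).eventually_le_const (by simpa using hε)).exists

theorem Fg.hg (hF : Fg len κ fl) (hT : Tg len κ) (y : Y) : Hg len κ fun x => dist (fl x) y := by
  obtain ⟨A, h1, hA⟩ := hF.eqv
  refine ⟨hF.meas.dist measurable_const, fun x => abs_dist.trans_le (hF.le _ _),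
    ⟨Real.log A + 2, 1, one_pos, fun J τ x u a b c => ?_⟩, fun ε hε => ?_⟩
  · have := hA 1 x u τ c
    rw [one_smul, one_mul, hT.one, ← Real.exp_log (one_pos.trans_le h1), ← Real.exp_add,
      dist_comm] at this
    exact (abs_dist_sub_le _ _ _).trans (this.trans (Real.exp_le_exp.2
      (by nlinarith [Real.log_nonneg h1])))
  · obtain ⟨O, hO, R, hR⟩ := hT.loc
    obtain ⟨τ, hτ⟩ := ev_aexp A (2 * R) (half_pos hε)
    have h2 := isCompact_univ.eventually_forall_of_forall_eventually (x₀ := (1 : G'))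
      (P := fun u (y : Y) => dist (u • y) y ≤ ε / 2) fun y _ =>
        (((continuous_smul.dist continuous_snd).tendsto (1, y)).eventually_le_const
          (by simpa using hε))
    refine ⟨_, inter_mem hO h2, τ, fun u hu x hx => (abs_dist_sub_le _ _ _).trans ?_⟩
    have := hA u x 1 τ hx
    rw [mul_one, hT.one, add_zero, dist_comm] at this
    have h3 := mul_le_mul_of_nonneg_left (Real.exp_le_exp.2 (show -τ + 2 * len u ≤ -τ + 2 * R by
      linarith [hR u hu.1])) (zero_le_one.trans h1)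
    linarith [dist_triangle (fl (u * x)) (u • fl x) (fl x), hu.2 (fl x) trivial]

theorem exists_sf [l.NeBot] (hm : Measurable fl)
    (h : ∀ y, ∃ e, SF C l (C.t.m fun x => (dist (fl x) y : ℂ)) e) (f : C(Y, ℝ)) :
    ∃ e, SF C l (C.t.m fun x => (f (fl x) : ℂ)) e := by
  have b : ∀ f : C(Y, ℝ), Bd fun x => (f (fl x) : ℂ) := fun f => (bd_c (cx f f.continuous)).comp hm
  let A : Subalgebra ℝ C(Y, ℝ) :=
    { carrier := {f | ∃ e, SF C l (C.t.m fun x => (f (fl x) : ℂ)) e}
      mul_mem' := fun {f g} ⟨e, a⟩ ⟨e', a'⟩ => ⟨_, a.mulR (b f) (b g) a'⟩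
      add_mem' := fun {f g} ⟨e, a⟩ ⟨e', a'⟩ => ⟨_, a.addR (b f) (b g) a'⟩
      algebraMap_mem' := fun c => ⟨_, by
        simpa [C.t.m_const] using SF.of_cp (C := C) (l := l) (cp_iff.2 (cm_smul (c : ℂ) cm_one))⟩ }
  have hA : A.SeparatesPoints := fun y y' hy =>
    ⟨_, ⟨⟨fun v => dist v y, by fun_prop⟩, h y, rfl⟩, by simpa [eq_comm] using hy⟩
  refine SF.exists_of_near fun ε hε => ?_
  obtain ⟨⟨g, e, he⟩, hg⟩ :=
    ContinuousMap.exists_mem_subalgebra_near_continuousMap_of_separatesPoints A hA f ε hε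
  refine ⟨_, e, he, ?_⟩
  rw [← C.t.m_sub (b f) (b g)]
  refine C.t.norm_m_le ((b f).sub (b g)).meas hε.le fun x => ?_
  rw [Pi.sub_apply, ← Complex.ofReal_sub, Complex.norm_real, norm_sub_rev]
  exact ((g - f).norm_coe_le_norm _).trans hg.le

theorem exists_bf [l.NeBot] (hm : Measurable fl) (hw : Wall C l κ)
    (h : ∀ y, ∃ e, SF C l (C.t.m fun x => (dist (fl x) y : ℂ)) e) : ∃ E, BF C l κ fl E := by
  choose Φ hΦ using fun g : C_c(Y, ℝ) => exists_sf hm h ⟨g, g.continuous⟩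
  have b : ∀ f : C_c(Y, ℝ), Bd fun x => (f (fl x) : ℂ) := fun f => (bd_cc f).comp hm
  have re := fun g ξ => (Complex.continuous_re.tendsto _).comp ((hΦ g).inner ξ ξ)
  obtain ⟨E, hE⟩ := POM.exists_ofCc Φ (fun f g => (hΦ _).unique ((hΦ f).addR (b f) (b g) (hΦ g)))
    (fun c f => (hΦ _).unique ((hΦ f).smulR (b f) c))
    (fun g ξ => tendsto_nhds_unique ((Complex.continuous_im.tendsto _).comp ((hΦ g).inner ξ ξ))
      (tendsto_const_nhds.congr fun _ => (im_m _ (b g) _).symm))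
    (fun g hg ξ => ge_of_tendsto' (re g ξ) fun k => by
      simpa [C.t.m_const] using re_m_mono C.t (f := fun _ => 0) (Bd.const _) (b g)
        (fun x => hg _) (C.s.π k ξ))
    (fun g hg ξ => le_of_tendsto' (re g ξ) fun k => by
      simpa [C.t.m_const, C.s.norm_π, ← Complex.ofReal_pow] using
        re_m_mono C.t (f' := fun _ => 1) (b g) (Bd.const _) (fun x => (hg _).2) (C.s.π k ξ))
  refine ⟨E, fun f => ?_, hw⟩
  let a : C_c(Y, ℝ) := ⟨⟨fun y => (f y).re, by fun_prop⟩, .of_compactSpace _⟩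
  let a' : C_c(Y, ℝ) := ⟨⟨fun y => (f y).im, by fun_prop⟩, .of_compactSpace _⟩
  have := (hΦ a).add ((hΦ a').smul Complex.I)
  rw [← hE, ← hE, ← E.smul _ (bd_cc a'), ← E.add (bd_cc a) ((bd_cc a').smul _)] at this
  have e : ((fun y => (a y : ℂ)) + Complex.I • fun y => (a' y : ℂ)) = f := funext fun y => by
    simp [a, a', mul_comm Complex.I]
  rw [e] at this
  refine (congrArg (fun T => SF C l T _) ?_).mp this
  exact ((C.t.m_add (b a) ((b a').smul _)).trans (congrArg _ (C.t.m_smul _ (b a')))).symm.trans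
    (congrArg C.t.m (funext fun x => congrFun e (fl x)))

namespace BF

variable [l.NeBot] (h : BF C l κ fl E)
include h

theorem isP (hm : Measurable fl) : E.IsP := E.isP_of_cc
  ((h.sf 1).unique ((congrArg (fun T => SF C l T 1) C.t.m_one).mpr (.of_cp (cp_iff.2 cm_one))))
  fun f g => (h.cc (f * g)).unique
    ((h.cc f).mulR ((bd_cc f).comp hm) ((bd_cc g).comp hm) (h.cc g))

theorem cm (hm : Measurable fl) : ∀ φ, Bd φ → Cm W (E.f φ) :=
  (cls_cm E).of_cc fun g => (h.cc g).cm (C.t.cm_m ((bd_cc g).comp hm))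

theorem cov (hF : Fg len κ fl) (hT : Tg len κ) : Cov C.t.π E := fun k =>
  (POM.cls_ext (sg C.t k E) (E.map (fun y => k⁻¹ • y) (measurable_const_smul _))).of_cc fun g => by
    have b := (bd_cc g).comp hF.meas
    refine ((h.cc g).conj k).unique ?_
    rw [C.t.cov b]
    refine h.wall.congr hT ((bd_cc (ccH g (.smul k⁻¹))).comp hF.meas)
      (b.comp (measurable_const_mul _)) (fun ε hε => ?_) (h.cc (ccH g (.smul k⁻¹)))
    obtain ⟨δ, h1, h2⟩ := Metric.uniformContinuous_iff_le.1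
      (CompactSpace.uniformContinuous_of_continuous g.continuous) ε hε
    obtain ⟨A, -, hA⟩ := hF.eqv
    obtain ⟨τ, hτ⟩ := ev_aexp A (2 * (len k⁻¹ + len 1)) h1
    refine ⟨τ, fun x hx => ?_⟩
    rw [← Complex.ofReal_sub, Complex.norm_real, norm_sub_rev]
    exact h2 (mul_one (k⁻¹ * x) ▸ (hA k⁻¹ x 1 τ hx).trans hτ)

end BF

theorem BF.bnd (h : BF C (pf z) κ fl E) (hF : Fg len κ fl) (hT : Tg len κ) : Bnd C z κ fl E :=
  ⟨h.isP hF.meas, h.cm hF.meas, h.cov hF hT, fun f => sl_iff.2 (h.sf f),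
    fun τ => sl_iff.2 (h.wall τ), fun q hq =>
      (POM.cls_ext (sg C.s q E) E).of_cc fun g => (sl_iff.2 (h.cc g)).inv hq⟩

/-- **Block B5**, abstract form -/
theorem exists_bnd (hL : Lk C S p) (hT : Tg len κ) (hF : Fg len κ fl)
    (hW : Wk S (fun γ : C.t.Γ => len γ) (fun i γ => κ (γ : G')⁻¹ i) z) (hm : Mix C z) :
    ∃ E, Bnd C z κ fl E :=
  (exists_bf hF.meas (wall_pf hL hT hW hm) fun y => exists_sl hL hT hW hm (hF.hg hT y)).imp
    fun _ h => h.bnd hF hT

end Vale.Agent.P092BF
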