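import Vale.Agent.P092NW.Amp
import Vale.Agent.P092WN.Asy
import Mathlib.Analysis.PSeries

/-!
P092, block B5: left slow multipliers converge along a path which leaves all the walls.
-/

set_option linter.unusedSectionVars false
set_option linter.unusedVariables false

open Filter Topology ContinuousLinearMap
open scoped InnerProductSpace

namespace Vale.Agent.P092BF

open Vale.Agent.P092WN Vale.Agent.P092NW

variable {G Γ H H₀ : Type} [Group G] [TopologicalSpace G] [Group Γ] [NormedAddCommGroup H]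
  [InnerProductSpace ℂ H] [CompleteSpace H] [NormedAddCommGroup H₀] [InnerProductSpace ℂ H₀]
  {S : Sys G Γ H H₀} {len : Γ → ℝ} {T : ℝ → ℝ} {r' : ℕ} {gap : Fin r' → Γ → ℝ} {C : ℝ}
  {z : ℕ → G} {f : Γ → ℝ}

/-- functions which vary slowly under left translations when all the gaps are large -/
def Slow (len : Γ → ℝ) (gap : Fin r' → Γ → ℝ) (f : Γ → ℝ) : Prop :=
  (∀ γ, |f γ| ≤ 1) ∧ ∃ D c : ℝ, 0 < c ∧ ∀ (J τ : ℝ) (s γ : Γ), 1 ≤ J → len s ≤ J →
    γ ∈ Big gap Finset.univ τ → |f (s * γ) - f γ| ≤ Real.exp (D * J - c * τ)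

/-- a path with bounded left steps -/
def Stp (z : ℕ → G) : Prop :=
  z 0 = 1 ∧ ∃ Q : Set G, IsCompact Q ∧ ∀ n, z (n + 1) * (z n)⁻¹ ∈ Q

theorem mass_big (hw : ∀ i, S.NearWall (gap i) T z) :
    ∀ᶠ n : ℕ in atTop, S.mass (Big gap Finset.univ (T n))ᶜ (S.ζ (z n)) ≤ r' * Real.exp (-T n) := by
  filter_upwards [eventually_all.2 hw] with n hn
  refine (Pr_mono S (E' := ⋃ i ∈ Finset.univ, {γ | gap i γ ≤ T n}) (fun γ hγ => ?_) _).trans
    ((Pr_biUnion_le S _ _ _).trans ((Finset.sum_le_card_nsmul _ _ _ fun i _ => hn i).trans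
      (by simp)))
  simp only [Big, Set.mem_compl_iff, Set.mem_ofPred_eq, not_forall, not_le] at hγ
  obtain ⟨i, -, hi⟩ := hγ
  simp only [Set.mem_iUnion]
  exact ⟨i, Finset.mem_univ i, hi.le⟩

theorem ex3 {N a u x y : ℝ} (hN : 1 ≤ N) (h : a * x + a * Real.log N ≤ y) (hx : 0 ≤ x)
    (h3 : 3 ≤ a) (hu : u ≤ a) : Real.exp (u * x) * Real.exp (-y) ≤ 1 / N ^ 3 := by
  have h0 : 0 < N := by linarith
  rw [one_div, ← Real.exp_log (pow_pos h0 3), ← Real.exp_neg, Real.log_pow, ← Real.exp_add]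
  have h1 := mul_le_mul_of_nonneg_right h3 (Real.log_nonneg hN)
  have h2 := mul_le_mul_of_nonneg_right hu hx
  exact Real.exp_le_exp.2 (by push_cast; linarith)

theorem ex4 {N a c C D x y : ℝ} (hN : 1 ≤ N) (h : a * x + a * Real.log N ≤ y) (hx : 0 ≤ x)
    (hc : 0 < c) (hC : 0 ≤ C) (h3 : C + |D| + 3 ≤ c * a) :
    Real.exp (C * x) * Real.exp (D * x - c * y) ≤ 1 / N ^ 3 := by
  have h1 := ex3 (a := c * a) (u := C + D) (y := c * y) hN
    (by have := mul_le_mul_of_nonneg_left h hc.le; linarith) hx (by linarith [abs_nonneg D])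
    (by linarith [le_abs_self D])
  rwa [add_mul, Real.exp_add, mul_assoc, ← Real.exp_add (D * x)] at h1

theorem fin3 {N r e1 e2 e3 e4 e5 e6 e7 K K' : ℝ} (hN : 1 ≤ N) (r0 : 0 ≤ r) (p1 : e1 ≤ 1 / N ^ 3)
    (p2 : K * e2 ≤ 1 / N ^ 3) (p3 : K * e3 ≤ 1 / N ^ 3) (p4 : e4 ≤ 1 / N ^ 3) (p5 : e5 ≤ 1 / N ^ 3)
    (p6 : K' * e6 ≤ 1 / N ^ 3) (p7 : K' * e7 ≤ 1 / N ^ 3) :
    2 * (e1 + N * (e1 + K * (e2 + 2 * (r * e3)))) + e4 + (e5 + K' * (e6 + 2 * (r * e7))) ≤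
      (9 + 6 * r) * (1 / N ^ 2) := by
  have p8 : N * (1 / N ^ 3) = 1 / N ^ 2 := by field_simp
  have p9 : 1 / N ^ 3 ≤ 1 / N ^ 2 :=
    one_div_le_one_div_of_le (by positivity) (pow_le_pow_right₀ hN (by norm_num))
  have q1 := mul_le_mul_of_nonneg_left p3 r0
  have q2 := mul_le_mul_of_nonneg_left p7 r0
  have q3 := mul_le_mul_of_nonneg_left p9 r0
  have q4 : N * (e1 + K * (e2 + 2 * (r * e3))) ≤ N * ((2 + 2 * r) * (1 / N ^ 3)) :=
    mul_le_mul_of_nonneg_left (by linarith) (by linarith)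
  rw [mul_left_comm N (2 + 2 * r), p8] at q4
  linarith

/-- one step of the chain -/
theorem step_ev (hT : Scale T) (hS : Ex S) (hG : Gp len gap C) (ht : S.Tail len T) (hz : Stp z)
    (hw : ∀ i, S.NearWall (gap i) T z) (hf : Slow len gap f) : ∃ B : ℝ, ∀ᶠ N : ℕ in atTop,
      ‖S.L (z (N + 1) * (z N)⁻¹) (S.m f (S.ζ (z N))) - S.m f (S.ζ (z (N + 1)))‖ ≤
        B * (1 / (N : ℝ) ^ 2) := by
  obtain ⟨h0, Q, hQ, hq⟩ := hz
  obtain ⟨h1, D, c, hc, hD⟩ := hf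
  obtain ⟨n₀, hn₀⟩ := eventually_atTop.1 (mass_big hw)
  have hC := hG.one_le
  obtain ⟨A, a1, a2, a3⟩ : ∃ A : ℝ, 3 * C + 3 ≤ A ∧ C + |D| + 3 ≤ c * A ∧ 1 ≤ A :=
    ⟨max (3 * C + 3) ((C + |D| + 3) / c), le_max_left _ _,
      by rw [← div_le_iff₀' hc]; exact le_max_right _ _, le_max_of_le_left (by linarith)⟩
  refine ⟨9 + 6 * r', ?_⟩
  filter_upwards [(hT.top 2).eventually (ap_tail hG ht hQ), (hT.top 6).eventually
    (ap_tail hG ht hQ), (hT.top 6).eventually ht.1, (hT.top 4).eventually_ge_atTop n₀,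
    eventually_ge_atTop n₀, eventually_ge_atTop 1, hT.lin 1 (zero_le_one.trans a3),
    hT.lin 5 (zero_le_one.trans a3), hT.ev 3 A, hT.anti 4 2, hT.anti 1 3,
    hT.lin 0 (zero_le_one.trans a3), hT.lin 7 (zero_le_one.trans a3),
    (hT.top 7).eventually_ge_atTop 0] with N b1 b2 b3 b4 b5 b6 c1 c5 c3 c4 c0 c00 c7 c8
  have hN : (1 : ℝ) ≤ N := by exact_mod_cast b6
  have hl := Real.log_nonneg hN
  have hD' := le_abs_self D
  have hD0 := abs_nonneg D
  have it : ∀ k, T (T^[k] N) = T^[k + 1] N := fun k => (Function.iterate_succ_apply' T k N).symm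
  simp only [Function.iterate_zero, id] at c00
  generalize e1 : T^[1] (N : ℝ) = t1 at *
  have i1 : T N = t1 := e1
  have i3 := it 2
  have i5 := it 4
  have i7 := it 6
  generalize e2 : T^[2] (N : ℝ) = t2 at *
  generalize e3 : T^[3] (N : ℝ) = t3 at *
  generalize e4 : T^[3 + 1] (N : ℝ) = t4 at *
  generalize e5 : T^[5] (N : ℝ) = t5 at *
  generalize e6 : T^[5 + 1] (N : ℝ) = t6 at *
  generalize e7 : T^[7] (N : ℝ) = t7 at *
  rw [i3] at b1
  rw [i7] at b2 b3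
  obtain ⟨w⟩ := vb_of hG c5.1 b3.some
  rw [← h0] at w
  have m1 : t4 ≤ ⌈t4⌉₊ := Nat.le_ceil _
  have m2 : (⌈t4⌉₊ : ℝ) < t4 + 1 := Nat.ceil_lt_add_one (by linarith [c3.1])
  have m3 : ⌈t4⌉₊ ≤ N := Nat.ceil_le.2 (by
    linarith [c00.2, le_mul_of_one_le_left (zero_le_one.trans c00.1) a3,
      mul_nonneg (zero_le_one.trans a3) hl])
  obtain ⟨W, w1, w2⟩ := amp hS (fun n => (b2 _ (hq n)).1.some) w h1
    (δ := Real.exp (D * t6 - c * t5)) (β := r' * Real.exp (-t5)) (Real.exp_pos _).le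
    (by positivity) (E := fun n => Big gap Finset.univ (T n)) m3 fun n a b => by
      have m5 := m1.trans (Nat.cast_le.2 a)
      have m4 : t5 ≤ T n := i5 ▸ hT.mono m5
      refine ⟨(hn₀ n (Nat.cast_le.1 (b4.trans m5))).trans ?_, fun γ hγ s hs =>
        (hD t6 _ s γ c5.1 hs hγ).trans (Real.exp_le_exp.2 (by gcongr))⟩
      gcongr
  have u := (b1 _ (hq N)).1.some.ui hS h1 (δ := Real.exp (D * t2 - c * t1)) (Real.exp_pos _).le
    (fun γ hγ s hs => hD t2 t1 s γ c1.1 hs (i1 ▸ hγ)) (hn₀ N b5) w1 w2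
  rw [inv_mul_cancel_right, i1] at u
  refine u.trans ?_
  have a4 : 3 ≤ A := by linarith
  have a5 : C ≤ A := by linarith
  have a6 : 0 ≤ A := by linarith
  have z1 := zero_le_one.trans c1.1
  have z5 := zero_le_one.trans c5.1
  refine fin3 hN (Nat.cast_nonneg _) (by simpa using ex3 hN c7.2 (zero_le_one.trans c7.1) a4 a6)
    (ex4 hN c5.2 z5 hc hG.C_nonneg a2) (ex3 hN c5.2 z5 a4 a5) ?_
    (by simpa using ex3 hN c3.2 (sq_nonneg _) a4 a6) (ex4 hN c1.2 z1 hc hG.C_nonneg a2)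
    (ex3 hN c1.2 z1 a4 a5)
  refine le_trans ?_ (ex3 (u := 3 * C) hN c3.2 (sq_nonneg _) a4 (by linarith))
  rw [← Real.exp_nat_mul, ← Real.exp_add, mul_comm]
  have q1 : (⌈t4⌉₊ + 1 : ℝ) * t6 ≤ 3 * t4 * t4 :=
    mul_le_mul (by linarith [c3.1]) c4 z5 (by linarith [c3.1])
  have q2 := mul_le_mul_of_nonneg_left q1 hG.C_nonneg
  exact mul_le_mul_of_nonneg_right (Real.exp_le_exp.2 (by linarith)) (Real.exp_pos _).le

/-- **The chain converges.** -/
theorem cauchy (hT : Scale T) (hS : Ex S) (hG : Gp len gap C) (ht : S.Tail len T) (hz : Stp z)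
    (hw : ∀ i, S.NearWall (gap i) T z) (hf : Slow len gap f) :
    ∃ e, Tendsto (fun n => S.L (z n)⁻¹ (S.m f (S.ζ (z n)))) atTop (𝓝 e) := by
  obtain ⟨B, hB⟩ := step_ev hT hS hG ht hz hw hf
  refine cauchySeq_tendsto_of_complete (cauchySeq_of_summable_dist (Summable.of_norm_bounded_eventually_nat
    ((Real.summable_one_div_nat_pow.2 one_lt_two).mul_left B) (hB.mono fun N hN => ?_)))
  rw [Real.norm_of_nonneg dist_nonneg, dist_eq_norm]
  refine le_trans (le_of_eq ?_) ((S.L_le (z (N + 1))⁻¹ _).trans hN)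
  rw [map_sub, hS.L_mul, inv_mul_cancel_left]

end Vale.Agent.P092BF
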