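import Vale.Agent.P092BF.Cau
import Vale.Agent.P092CP.Four
import Vale.Agent.P092RD.D7

/-!
P092, block B5: the interface. The link between the two-sided system and the coupling, mixing,
strong limits along a path.
-/

set_option linter.unusedSectionVars false
set_option linter.unusedVariables false

open Filter Topology ContinuousLinearMap MeasureTheory
open scoped InnerProductSpace

namespace Vale.Agent.P092BF

open Vale.Agent.P092CP Vale.Agent.P092RD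
open Vale.Agent.P092WN (Sys)
open Vale.Agent.P092NW (Ex Hm Gp Big)
open Vale.Agent.P092.RC (Cm)

/-- what is used of the two-sided system along the path `z` -/
structure Wk {G Γ H H₀ : Type} [Group G] [Group Γ] [NormedAddCommGroup H] [InnerProductSpace ℂ H]
    [CompleteSpace H] [NormedAddCommGroup H₀] [InnerProductSpace ℂ H₀] (S : Sys G Γ H H₀)
    (len : Γ → ℝ) {r : ℕ} (gap : Fin r → Γ → ℝ) (z : ℕ → G) : Prop where
  ex : Ex S
  gp : ∃ C, Gp len gap C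
  wall : ∀ τ, Tendsto (fun n => S.mass (Big gap Finset.univ τ)ᶜ (S.ζ (z n))) atTop (𝓝 0)
  lim : ∀ f, Slow len gap f →
    ∃ e, Tendsto (fun n => S.m f (S.ζ (z n)) - S.L (z n) e) atTop (𝓝 0)

variable {G G' K : Type} [Group G] [TopologicalSpace G] [MeasurableSpace G] [Group G']
  [TopologicalSpace G'] [MeasurableSpace G'] [NormedAddCommGroup K] [InnerProductSpace ℂ K]
  [CompleteSpace K] {μ : Measure G} {μ' : Measure G'} {W : Set (K →L[ℂ] K)}

/-- the position in the lattice: `x ∈ cell (dg x)` -/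
noncomputable def dg (S : Side μ W) (x : G) : S.Γ := (S.fund x).choose

/-- the functions of the position in the lattice -/
noncomputable def mg (S : Side μ W) (f : S.Γ → ℝ) : K →L[ℂ] K := S.m fun x => (f (dg S x) : ℂ)

/-- **The link** between the two-sided system and the coupling. In the model `p` sends the vector
of `a` to `(j 0)* ω* a Ω₀`; `l s` is the same with the component of degree `s` of `ω*`, and `b t`
is the right multiplication by the component of degree `t` of `ω`. -/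
structure Lk {H H₀ : Type} [NormedAddCommGroup H] [InnerProductSpace ℂ H] [CompleteSpace H]
    [NormedAddCommGroup H₀] [InnerProductSpace ℂ H₀] (C : Cpl μ μ' W) (S : Sys G C.t.Γ H H₀)
    (p : H →L[ℂ] K) : Prop where
  p_le : ∀ v, ‖p v‖ ≤ ‖v‖
  p_L : ∀ h v, p (S.L h v) = C.s.π h (p v)
  left : ∀ ε : ℝ, 0 < ε → ∃ (F : Finset C.t.Γ) (l : C.t.Γ → H →L[ℂ] K) (x : K →L[ℂ] K),
    C.t.M x ∧ ‖x C.t.Ω - C.t.Ω‖ ≤ ε ∧ (∀ v, ∑ s ∈ F, l s (S.L 1 v) = x (p v)) ∧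
      ∀ s ∈ F, ∀ f, P092WN.Bd f → ∀ v, mg C.t f (l s v) = l s (S.m (fun γ => f (s * γ)) v)
  right : ∀ ε : ℝ, 0 < ε → ∃ (F : Finset C.t.Γ) (b : C.t.Γ → G → H →L[ℂ] H),
    (∀ t ∈ F, Hm S (b t) t) ∧ ‖p (∑ t ∈ F, b t 1 (S.ζ 1)) - C.t.Ω‖ ≤ ε ∧
      ‖∑ t ∈ F, b t 1 (S.ζ 1)‖ ≤ 2

/-- mixing along the path -/
def Mix (C : Cpl μ μ' W) (z : ℕ → G) : Prop :=
  ∀ x, C.t.M x → ∀ ξ (ε : ℝ), 0 < ε → ∀ᶠ n in atTop, ‖x (C.s.π (z n) ξ)‖ ≤ ‖x C.t.Ω‖ * ‖ξ‖ + ε

/-- **Strong limits**: `π(q z n)⁻¹ T π(q z n) → e` strongly, uniformly for `q` in a compact set. -/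
def SL (C : Cpl μ μ' W) (z : ℕ → G) (T e : K →L[ℂ] K) : Prop :=
  ∀ Q : Set G, IsCompact Q → ∀ ξ (ε : ℝ), 0 < ε → ∀ᶠ n in atTop, ∀ q ∈ Q,
    ‖T (C.s.π (q * z n) ξ) - C.s.π (q * z n) (e ξ)‖ ≤ ε

/-- the length and the gaps on the target group -/
structure Tg (len : G' → ℝ) {r : ℕ} (κ : G' → Fin r → ℝ) : Prop where
  mlen : Measurable len
  mκ : Measurable κ
  one : len 1 = 0
  inv : ∀ g, len g⁻¹ = len g
  nonneg : ∀ g, 0 ≤ len g
  mul : ∀ g h, len (g * h) ≤ len g + len h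
  loc : ∃ O ∈ 𝓝 (1 : G'), ∃ R, ∀ u ∈ O, len u ≤ R
  lip : ∃ C : ℝ, 0 ≤ C ∧ ∀ s g t i, |κ (s * g * t) i - κ g i| ≤ C * (len s + len t)

/-- all gaps are large -/
def Far {r : ℕ} (κ : G' → Fin r → ℝ) (τ : ℝ) : Set G' := {x | ∀ i, τ ≤ κ x i}

/-- functions on the target group which look like functions on the boundary far from the walls -/
structure Hg (len : G' → ℝ) {r : ℕ} (κ : G' → Fin r → ℝ) (F : G' → ℝ) : Prop where
  meas : Measurable F
  le : ∀ x, |F x| ≤ 1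
  slow : ∃ D c : ℝ, 0 < c ∧ ∀ (J τ : ℝ) x y, 1 ≤ J → len y ≤ J → x ∈ Far κ τ →
    |F (x * y) - F x| ≤ Real.exp (D * J - c * τ)
  uc : ∀ ε : ℝ, 0 < ε → ∃ O ∈ 𝓝 (1 : G'), ∃ τ, ∀ u ∈ O, ∀ x ∈ Far κ τ, |F (u * x) - F x| ≤ ε

/-- **The output of block B5**: the boundary calculus `E` is the strong limit of the functions of
the flag `fl x` of the position, and the position leaves all the walls. -/
structure Bnd {Y : Type} [TopologicalSpace Y] [MeasurableSpace Y] [MulAction G' Y]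
    (C : Cpl μ μ' W) (z : ℕ → G) {r : ℕ} (κ : G' → Fin r → ℝ) (fl : G' → Y) (E : POM Y K) :
    Prop where
  isP : E.IsP
  cm : ∀ φ, Bd φ → Cm W (E.f φ)
  cov : Cov C.t.π E
  sl : ∀ f : C(Y, ℂ), SL C z (C.t.m fun x => f (fl x)) (E.f f)
  wall : ∀ τ, SL C z (C.t.P (Far κ τ)ᶜ) 0
  inv : ∀ p : G, (∃ Q : Set G, IsCompact Q ∧ ∀ᶠ n in atTop, z n * p * (z n)⁻¹ ∈ Q) →
    ∀ φ, Bd φ → C.s.π p * E.f φ * C.s.π p⁻¹ = E.f φ

end Vale.Agent.P092BF
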