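import Vale.Agent.P092BF.Bnd
import Vale.Agent.P092GK.Flg
import Vale.Agent.P092NW.Ph1

/-!
P092, block B5: the boundary calculus and the tightness of the heights, from phase one.
-/

set_option linter.unusedSectionVars false
set_option linter.unusedVariables false

open Filter Topology ContinuousLinearMap MeasureTheory

namespace Vale.Agent.P092BF

open Vale.Agent.P092CP Vale.Agent.P092RD Vale.Agent.P092GK
open Vale.Agent.P092WN (Sys)
open Vale.Agent.P092NW (Ph zp)

variable {G G' K H H₀ : Type} [Group G] [TopologicalSpace G] [IsTopologicalGroup G]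
  [LocallyCompactSpace G] [SecondCountableTopology G] [T2Space G] [MeasurableSpace G] [BorelSpace G]
  [Group G'] [TopologicalSpace G'] [IsTopologicalGroup G'] [LocallyCompactSpace G']
  [SecondCountableTopology G'] [T2Space G'] [MeasurableSpace G'] [BorelSpace G']
  [NormedAddCommGroup K] [InnerProductSpace ℂ K] [CompleteSpace K] {μ : Measure G}
  [μ.IsHaarMeasure] {μ' : Measure G'} [μ'.IsHaarMeasure] {W : Set (K →L[ℂ] K)}
  [NormedAddCommGroup H] [InnerProductSpace ℂ H] [CompleteSpace H] [NormedAddCommGroup H₀]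
  [InnerProductSpace ℂ H₀] {C : Cpl μ μ' W} {S : Sys G C.t.Γ H H₀} {p : H →L[ℂ] K}

theorem P_le_sum (S : Side μ W) {ι : Type} (s : Finset ι) {A : ι → Set G}
    (hA : ∀ i, MeasurableSet (A i)) (ξ : K) : ‖S.P (⋃ i ∈ s, A i) ξ‖ ≤ ∑ i ∈ s, ‖S.P (A i) ξ‖ := by
  classical
  induction s using Finset.induction_on with
  | empty => simp [S.P_empty]
  | insert i s hi ih =>
    rw [Finset.sum_insert hi, Finset.set_biUnion_insert]
    have := s.measurableSet_biUnion fun i _ => hA i
    exact (P_le_add S ((hA i).union this) (hA i) this subset_rfl ξ).trans (add_le_add_right ih _)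

/-- from the trace vector to all vectors, for a family of sets -/
theorem tendsto_all {ι : Type} {U : Filter ι} {A : ι → Set G'} (hA : ∀ i, MeasurableSet (A i))
    {g : ι → G} (h : ∀ k : G', Tendsto (fun i => C.t.P ((k * ·) ⁻¹' A i) (C.s.π (g i) C.t.Ω)) U
      (𝓝 0)) (ξ : K) : Tendsto (fun i => C.t.P (A i) (C.s.π (g i) ξ)) U (𝓝 0) := by
  have := tendsto_of_total (A := fun i => C.s.π (g i)⁻¹ * C.t.P (A i) * C.s.π (g i)⁻¹⁻¹) (A₀ := 0)
    C.total (.of_forall fun i => (C.s.norm_conj_le _ _).trans (C.t.norm_P_le (hA i))) (by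
      rintro _ ⟨w, k, hw, rfl⟩
      exact (tendsto_op (tendsto_op (tendsto_π (h k) fun i => (g i)⁻¹) (C.t.π k)) w).congr fun i =>
        (congrArg w (conj_k C (Bd.ind (hA i)) (g i) k).symm).trans
          (ap_eq (hw _ (C.s.conj _ (C.t.cm_P (hA i)) _)) _)) ξ
  simpa only [mul_ap, pi_ap_inv, inv_inv] using tendsto_π (C := C) this g

variable {k k' : Type} [NontriviallyNormedField k] [NontriviallyNormedField k'] [ProperSpace k']
  {r r' : ℕ} {F : FlD k G r} {F' : FlD k' G' r'} {n : Fin r → ℕ → ℕ}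
  {L : (Fin r → ℝ) →ₗ[ℝ] (Fin r' → ℝ)}

/-- the heights of the position of `π (q a z N) ξ` are `L (ℓ (a z N))` up to a bounded error -/
def Tight (C : Cpl μ μ' W) (F : FlD k G r) (F' : FlD k' G' r') (z : ℕ → G)
    (L : (Fin r → ℝ) →ₗ[ℝ] (Fin r' → ℝ)) : Prop :=
  ∀ Q, IsCompact Q → ∀ ξ (ε : ℝ), 0 < ε → ∀ᶠ R : ℝ in atTop, ∀ a ∈ F.Z, ∀ᶠ N in atTop, ∀ q ∈ Q,
    ‖C.t.P {x | R < ‖F'.lam x - L (F.ℓ (a * z N))‖} (C.s.π (q * (a * z N)) ξ)‖ ≤ ε

theorem meas_lam (h' : Fl F') (R : ℝ) (c : Fin r' → ℝ) : MeasurableSet {x | R < ‖F'.lam x - c‖} :=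
  (isOpen_lt continuous_const (h'.cont_lam.sub continuous_const).norm).measurableSet

/-- **Tightness** -/
theorem tight (h' : Fl F') (hL : Lk C S p) (hP : Ph F F' S n L) : Tight C F F' (zp F n) L := by
  intro Q hQ ξ ε hε
  have := tendsto_all (C := C) (U := (atTop : Filter ℝ).curry ((𝓟 (F.Z : Set G)).curry
    ((atTop : Filter ℕ).curry (𝓟 Q)))) (g := fun i => i.2.2.2 * (i.2.1 * zp F n i.2.2.1))
    (fun i => meas_lam h' i.1 (L (F.ℓ (i.2.1 * zp F n i.2.2.1)))) (fun k => ?_) ξ
  · simpa only [eventually_curry_iff, eventually_principal, SetLike.mem_coe] using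
      this.norm.eventually_le_const (norm_zero.trans_lt hε)
  clear hε
  refine Metric.nhds_basis_closedBall.tendsto_right_iff.2 fun ε hε => ?_
  simp only [eventually_curry_iff, eventually_principal, SetLike.mem_coe, mem_closedBall_zero_iff]
  obtain ⟨δ, d0, d1⟩ := exists_pos_mul_lt hε (r' * 3)
  obtain ⟨R, N, h0, hN⟩ := transfer hL hP.wk.ex h'.tg hQ d0
  obtain ⟨δ', e0, e1⟩ := exists_pos_mul_lt d0 N
  obtain ⟨B, hB⟩ := hP.win
  have t := tendsto_atTop_add_const_right atTop (-(F'.len k + F'.len 1 + (R + R))) tendsto_id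
  filter_upwards [t.eventually_gt_atTop 0, ((t.const_div_atTop B).const_mul N).eventually_le_const
    (show _ < δ by simpa using d0), eventually_ge_atTop 0] with R₁ a1 a2 a3 a ha
  filter_upwards [hB a ha _ δ' a1 e0] with m hm q hq
  have mA : ∀ j, MeasurableSet {x | R₁ < |F'.lam (k * x) j - L (F.ℓ (a * zp F n m)) j|} := fun j =>
    (isOpen_lt continuous_const ((((continuous_apply j).comp h'.cont_lam).comp
      (continuous_const_mul k)).sub continuous_const).abs).measurableSet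
  have e : (k * ·) ⁻¹' {x | R₁ < ‖F'.lam x - L (F.ℓ (a * zp F n m))‖} = ⋃ j ∈ Finset.univ,
      {x | R₁ < |F'.lam (k * x) j - L (F.ℓ (a * zp F n m)) j|} := Set.ext fun x => by
    simp [← not_le, pi_norm_le_iff_of_nonneg a3]
  rw [e]
  refine (P_le_sum C.t _ mA _).trans ((Finset.sum_le_card_nsmul _ _ (3 * δ) fun j _ => ?_).trans
    (by simpa [mul_assoc] using d1.le))
  refine (hN q hq _ _ _ (mA j) fun x hx s t b c γ e => ?_).trans
    ((add_le_add_right (mul_le_mul_of_nonneg_left (hm j) h0) _).trans (by linarith))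
  have h1 := h'.lam_lip k x 1 j
  have h2 := h'.lam_lip s x t j
  rw [mul_one] at h1
  rw [← e, abs_sub_comm] at h2
  have h3 := (abs_sub_le _ _ _).trans (add_le_add h1 ((abs_sub_le _ _
    (L (F.ℓ (a * zp F n m)) j)).trans (add_le_add_left h2 _)))
  exact lt_of_add_lt_add_right (a := F'.len k + F'.len 1 + (R + R))
    (by linarith [hx.trans_le h3, id_eq R₁])

/-- **Block B5** -/
theorem b5 (h' : Fl F') {D : Set G'} {kl kr : G' → G'} {t : G' → Fin r' → ℤ}
    (hK : Kak F' D kl t kr) (hM : P092.H15.HMG G) (hL : Lk C S p) (hP : Ph F F' S n L)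
    [MeasurableSpace (F'.Y Finset.univ)] [BorelSpace (F'.Y Finset.univ)] :
    ∃ E, Bnd C (zp F n) F'.κ (fun x => (kl x : F'.Y Finset.univ)) E := by
  have := h'.compactY Finset.univ
  let _ := h'.metricY Finset.univ
  exact exists_bnd hL h'.tg (h'.fg hK) hP.wk (mix_of C hM hP.esc)

end Vale.Agent.P092BF
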