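import Vale.Agent.P092BF.Str

/-!
P092, block B5: from the two-sided vectors to the trace vector, functions on the lattice.
-/

set_option linter.unusedSectionVars false
set_option linter.unusedVariables false

open Filter Topology ContinuousLinearMap MeasureTheory
open scoped InnerProductSpace

namespace Vale.Agent.P092BF

open Vale.Agent.P092CP
open Vale.Agent.P092WN (Sys Scale)
open Vale.Agent.P092NW (Ex Hm Gp Big m_split m_sub norm_m_unit bd_comp bd_of Pr_mono)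
open Vale.Agent.P092.RC (Cm)

theorem conv_of_approx {E : Type} [NormedAddCommGroup E] [CompleteSpace E] {a : ℕ → E}
    (h : ∀ ε : ℝ, 0 < ε → ∃ η, ∀ᶠ n in atTop, ‖a n - η‖ ≤ ε) : ∃ η, Tendsto a atTop (𝓝 η) :=
  cauchySeq_tendsto_of_complete (Metric.cauchySeq_iff.2 fun ε hε => by
    obtain ⟨η, h1⟩ := h (ε / 3) (by positivity)
    obtain ⟨N, hN⟩ := eventually_atTop.1 h1
    refine ⟨N, fun m hm n hn => ?_⟩
    rw [dist_eq_norm]
    linarith [norm_sub_le_norm_sub_add_norm_sub (a m) η (a n), hN m hm, hN n hn,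
      norm_sub_rev η (a n)])

section sys

variable {G Γ H H₀ : Type} [Group G] [TopologicalSpace G] [Group Γ] [NormedAddCommGroup H]
  [InnerProductSpace ℂ H] [CompleteSpace H] [NormedAddCommGroup H₀] [InnerProductSpace ℂ H₀]
  {S : Sys G Γ H H₀} {len : Γ → ℝ} {T : ℝ → ℝ} {r : ℕ} {gap : Fin r → Γ → ℝ} {C : ℝ}
  {z : ℕ → G} {f : Γ → ℝ}

theorem wk_of (hT : Scale T) (hS : Ex S) (hG : Gp len gap C) (ht : S.Tail len T) (hz : Stp z)
    (hw : ∀ i, S.NearWall (gap i) T z) : Wk S len gap z where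
  ex := hS
  gp := ⟨C, hG⟩
  wall τ := by
    have h1 : Tendsto (fun n : ℕ => T n) atTop atTop := hT.top 1
    refine squeeze_zero' (.of_forall fun _ => norm_nonneg _) ?_ (by
      simpa using (Real.tendsto_exp_neg_atTop_nhds_zero.comp h1).const_mul (r : ℝ))
    filter_upwards [mass_big hw, h1.eventually_ge_atTop τ] with n a b
    exact (Pr_mono S (Set.compl_subset_compl.2 fun γ (hγ : γ ∈ Big gap Finset.univ (T n)) i hi =>
      b.trans (hγ i hi)) _).trans a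
  lim f hf := by
    obtain ⟨e, he⟩ := cauchy hT hS hG ht hz hw hf
    obtain ⟨B, hB⟩ := step_ev hT hS hG ht hz hw hf
    refine ⟨e, (tendsto_add_atTop_iff_nat 1).1 (squeeze_zero_norm' ?_ (?_ : Tendsto (fun n : ℕ =>
      2 * (B * (1 / (n : ℝ) ^ 2)) + ‖S.L (z (n + 1))⁻¹ (S.m f (S.ζ (z (n + 1)))) - e‖) _ _))⟩
    · filter_upwards [hB] with n hn
      have h1 := (S.L_le 1 _).trans hn
      have h2 := S.L_le (z (n + 1)) (S.L (z (n + 1))⁻¹ (S.m f (S.ζ (z (n + 1)))) - e)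
      rw [map_sub, hS.L_mul, one_mul] at h1
      rw [map_sub, hS.L_mul, mul_inv_cancel] at h2
      rw [norm_sub_rev] at hn
      linarith [(norm_sub_le_norm_sub_add_norm_sub _ _ _).trans (add_le_add hn
        ((norm_sub_le_norm_sub_add_norm_sub _ _ _).trans (add_le_add h1 h2)))]
    · simpa using (((Real.summable_one_div_nat_pow.2 one_lt_two).tendsto_atTop_zero.const_mul
        B).const_mul 2).add (((tendsto_add_atTop_iff_nat 1).2
          (tendsto_iff_norm_sub_tendsto_zero.1 he)))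

theorem big_mul (hG : Gp len gap C) {τ : ℝ} {γ : Γ} (s t : Γ)
    (h : γ ∈ Big gap Finset.univ (τ + C * (len s + len t))) : s * γ * t ∈ Big gap Finset.univ τ :=
  fun i hi => by linarith [h i hi, (abs_le.1 (hG.lip i s γ t)).1]

theorem Slow.right (hf : Slow len gap f) (hG : Gp len gap C) (t : Γ) :
    Slow len gap fun γ => f (γ * t) := by
  obtain ⟨h1, D, c, hc, hD⟩ := hf
  refine ⟨fun _ => h1 _, D + c * (C * (len 1 + len t)), c, hc, fun J τ s γ a b d => ?_⟩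
  have h2 := hD J (τ - C * (len 1 + len t)) s _ a b (big_mul hG 1 t (by rwa [sub_add_cancel]))
  rw [one_mul, ← mul_assoc] at h2
  refine h2.trans (Real.exp_le_exp.2 ?_)
  nlinarith [mul_nonneg hc.le (mul_nonneg hG.C_nonneg (add_nonneg (hG.len_nonneg 1)
    (hG.len_nonneg t)))]

theorem ev_exp (a : ℝ) {c ε : ℝ} (hc : 0 < c) (hε : 0 < ε) : ∃ τ, Real.exp (a - c * τ) ≤ ε :=
  ⟨(a - Real.log ε) / c, by rw [mul_div_cancel₀ _ hc.ne', sub_sub_cancel, Real.exp_log hε]⟩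

theorem Wk.small (h : Wk S len gap z) {c : ℝ} (h1 : ∀ γ, |f γ| ≤ c)
    (h2 : ∀ ε : ℝ, 0 < ε → ∃ τ, ∀ γ ∈ Big gap Finset.univ τ, |f γ| ≤ ε) :
    Tendsto (fun n => S.m f (S.ζ (z n))) atTop (𝓝 0) := by
  refine Metric.nhds_basis_closedBall.tendsto_right_iff.2 fun ε hε => ?_
  obtain ⟨τ, hτ⟩ := h2 _ (half_pos hε)
  filter_upwards [((h.wall τ).const_mul c).eventually_le_const
    (show _ < ε / 2 by simpa using hε)] with n hn
  have := m_split S ((abs_nonneg _).trans (h1 1)) (half_pos hε).le h1 hτ (S.ζ (z n))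
  rw [h.ex.ζ_one, mul_one] at this
  exact mem_closedBall_zero_iff.2 (this.trans ((add_le_add_right hn _).trans (add_halves ε).le))

theorem Wk.left (h : Wk S len gap z) (hf : Slow len gap f) (s : Γ) :
    Tendsto (fun n => S.m (fun γ => f (s * γ)) (S.ζ (z n)) - S.m f (S.ζ (z n))) atTop (𝓝 0) := by
  obtain ⟨h1, D, c, hc, hD⟩ := hf
  simp only [← m_sub S (bd_comp (bd_of h1) _) (bd_of h1)]
  refine h.small (c := 1 + 1) (fun γ => (abs_sub _ _).trans (add_le_add (h1 _) (h1 _))) fun ε hε => ?_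
  obtain ⟨τ, hτ⟩ := ev_exp (D * max 1 (len s)) hc hε
  exact ⟨τ, fun γ hγ => (hD _ τ s γ (le_max_left _ _) (le_max_right _ _) hγ).trans hτ⟩

theorem Hm.L {b : G → H →L[ℂ] H} {t : Γ} (hb : Hm S b t) (g : G) (v : H) :
    b g (S.L g v) = S.L g (b 1 v) := by
  rw [S.comm g _ b (S.L_lf g) hb.rt, mul_one]

end sys

variable {G G' K H H₀ : Type} [Group G] [TopologicalSpace G] [IsTopologicalGroup G]
  [LocallyCompactSpace G] [SecondCountableTopology G] [T2Space G] [MeasurableSpace G] [BorelSpace G]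
  [Group G'] [TopologicalSpace G'] [IsTopologicalGroup G'] [LocallyCompactSpace G']
  [SecondCountableTopology G'] [T2Space G'] [MeasurableSpace G'] [BorelSpace G']
  [NormedAddCommGroup K] [InnerProductSpace ℂ K] [CompleteSpace K] {μ : Measure G}
  [μ.IsHaarMeasure] {μ' : Measure G'} [μ'.IsHaarMeasure] {W : Set (K →L[ℂ] K)}
  [NormedAddCommGroup H] [InnerProductSpace ℂ H] [CompleteSpace H] [NormedAddCommGroup H₀]
  [InnerProductSpace ℂ H₀] {C : Cpl μ μ' W} {S : Sys G C.t.Γ H H₀} {p : H →L[ℂ] K} {z : ℕ → G}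
  {len : C.t.Γ → ℝ} {r : ℕ} {gap : Fin r → C.t.Γ → ℝ} {f : C.t.Γ → ℝ}

theorem dg_mem (S : Side μ W) (x : G) : x ∈ S.cell (dg S x) := S.r_mem x

theorem dg_eq (S : Side μ W) {x : G} {γ : S.Γ} (h : x ∈ S.cell γ) : dg S x = γ :=
  (S.fund x).unique (S.r_mem x) h

theorem r_eq (S : Side μ W) (x : G) : S.r x = x * dg S x := rfl

theorem meas_dg (S : Side μ W) {X : Type} [MeasurableSpace X] (f : S.Γ → X) :
    Measurable fun x => f (dg S x) := fun A hA => by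
  have := S.cnt
  have e : (fun x => f (dg S x)) ⁻¹' A = ⋃ γ ∈ f ⁻¹' A, S.cell γ := by
    ext x
    simp only [Set.mem_iUnion, Set.mem_preimage]
    exact ⟨fun h => ⟨_, h, dg_mem S x⟩, fun ⟨γ, a, b⟩ => by rwa [dg_eq S b]⟩
  rw [e]
  exact MeasurableSet.biUnion (Set.to_countable _) fun γ _ => S.meas_cell γ

theorem bd_dg (S : Side μ W) {f : S.Γ → ℝ} {c : ℝ} (h : ∀ γ, |f γ| ≤ c) :
    Bd fun x => (f (dg S x) : ℂ) := Bd.ofReal (meas_dg S f) fun _ => h _

theorem norm_mg (S : Side μ W) {f : S.Γ → ℝ} (h : ∀ γ, |f γ| ≤ 1) : ‖mg S f‖ ≤ 1 :=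
  S.norm_m_le (bd_dg S h).meas zero_le_one fun x => by simpa using h _

/-- the vector `π g Ω` in terms of `ζ g` -/
theorem Lk.master (hL : Lk C S p) (hS : Ex S) {ε : ℝ} (hε : 0 < ε) :
    ∃ (F F' : Finset C.t.Γ) (l : C.t.Γ → H →L[ℂ] K) (b : C.t.Γ → G → H →L[ℂ] H) (x : K →L[ℂ] K),
      C.t.M x ∧ ‖x C.t.Ω - C.t.Ω‖ ≤ ε ∧ (∀ g v, ∑ s ∈ F, l s (S.L g v) = x (C.s.π g (p v))) ∧
      (∀ t ∈ F', Hm S (b t) t) ∧ ‖∑ t ∈ F', b t 1 (S.ζ 1)‖ ≤ 2 ∧
      ∀ f : C.t.Γ → ℝ, (∀ γ, |f γ| ≤ 1) → ∀ g, ‖mg C.t f (C.s.π g C.t.Ω) -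
        ∑ s ∈ F, ∑ t ∈ F', l s (b t g (S.m (fun γ => f (s * (γ * t))) (S.ζ g)))‖ ≤ 2 * ε := by
  obtain ⟨F, l, x, a1, a2, a3, a4⟩ := hL.left ε hε
  obtain ⟨δ, h1, h2⟩ := exists_pos_mul_lt hε ‖x‖
  obtain ⟨F', b, b1, b2, b3⟩ := hL.right δ h1
  have a5 : ∀ g v, ∑ s ∈ F, l s (S.L g v) = x (C.s.π g (p v)) := fun g v => by
    rw [← hL.p_L, ← a3, hS.L_mul, one_mul]
  refine ⟨F, F', l, b, x, a1, a2, a5, b1, b3, fun f hf g => ?_⟩
  have e : ∑ s ∈ F, ∑ t ∈ F', l s (b t g (S.m (fun γ => f (s * (γ * t))) (S.ζ g))) =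
      mg C.t f (x (C.s.π g (p (∑ t ∈ F', b t 1 (S.ζ 1))))) := by
    rw [← a5, map_sum (mg C.t f)]
    refine Finset.sum_congr rfl fun s hs => ?_
    rw [a4 s hs f (bd_of hf), map_sum (S.L g), map_sum, map_sum]
    refine Finset.sum_congr rfl fun t ht => ?_
    rw [← Hm.L (b1 t ht), S.L_ζ, mul_one, (b1 t ht).hom g _ (bd_comp (bd_of hf) _)]
  rw [e, ← map_sub]
  refine ((mg C.t f).le_of_opNorm_le (norm_mg C.t hf) _).trans ?_
  have h3 := C.norm_s_Ω (a1.sub C.t.M_one) g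
  have h4 := x.le_opNorm_of_le ((C.s.norm_π g _).trans_le b2)
  rw [map_sub, map_sub, norm_sub_rev] at h4
  have h5 : ‖C.s.π g C.t.Ω - x (C.s.π g C.t.Ω)‖ ≤ ε := by
    rw [norm_sub_rev]; exact h3.trans_le a2
  linarith [(norm_sub_le_norm_sub_add_norm_sub _ _ _).trans (add_le_add h5 h4)]

/-- **Transfer** of the masses -/
theorem Lk.transfer (hL : Lk C S p) (hS : Ex S) {ε : ℝ} (hε : 0 < ε) :
    ∃ (F : Finset C.t.Γ) (N : ℝ), 0 ≤ N ∧ ∀ (g : G) (E E' : Set C.t.Γ),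
      (∀ s ∈ F, ∀ t ∈ F, ∀ γ, s * (γ * t) ∈ E → γ ∈ E') →
      ‖mg C.t (E.indicator 1) (C.s.π g C.t.Ω)‖ ≤ ε + N * S.mass E' (S.ζ g) := by
  classical
  obtain ⟨F, F', l, b, x, -, -, -, a4, -, a6⟩ := hL.master hS (half_pos hε)
  refine ⟨F ∪ F', ∑ s ∈ F, ∑ t ∈ F', ‖l s‖, by positivity, fun g E E' h => ?_⟩
  refine (norm_le_norm_sub_add _ _).trans (add_le_add
    ((a6 _ (P092NW.abs_ind E) g).trans (by linarith)) ?_)
  rw [Finset.sum_mul]
  refine norm_sum_le_of_le _ fun s hs => ?_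
  rw [Finset.sum_mul]
  refine norm_sum_le_of_le _ fun t ht => (l s).le_opNorm_of_le (((a4 t ht).ct g).1 _ |>.trans
    (S.m_le _ _ (P092NW.bd_ind E') (fun γ => ?_) _))
  by_cases h1 : s * (γ * t) ∈ E
  · simp [h1, h s (Finset.mem_union_left _ hs) t (Finset.mem_union_right _ ht) γ h1]
  · simp [h1]

theorem tb {E : Type} [NormedAddCommGroup E] [NormedSpace ℂ E] {B : ℕ → E →L[ℂ] E} {v : ℕ → E}
    (hB : ∀ n v, ‖B n v‖ ≤ ‖v‖) (h : Tendsto v atTop (𝓝 0)) :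
    Tendsto (fun n => B n (v n)) atTop (𝓝 0) :=
  squeeze_zero_norm (fun n => hB n _) (tendsto_zero_iff_norm_tendsto_zero.1 h)

/-- **The limit at the trace vector** of a slow function on the lattice -/
theorem Lk.lim (hL : Lk C S p) (hW : Wk S len gap z) (hm : Mix C z) (hf : Slow len gap f) :
    ∃ η, Tendsto (fun n => C.s.π (z n)⁻¹ (mg C.t f (C.s.π (z n) C.t.Ω))) atTop (𝓝 η) := by
  refine conv_of_approx fun ε hε => ?_
  obtain ⟨c, hG⟩ := hW.gp
  obtain ⟨F, F', l, b, x, a1, a2, a3, a4, a5, a6⟩ := hL.master hW.ex (ε := ε / 6) (by positivity)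
  choose e he using fun t => hW.lim _ (hf.right hG t)
  have h1 : ∀ s, Tendsto (fun n => ∑ t ∈ F', b t (z n) (S.m (fun γ => f (s * (γ * t))) (S.ζ (z n))) -
      S.L (z n) (∑ t ∈ F', b t 1 (e t))) atTop (𝓝 0) := fun s => by
    have h2 := tendsto_finsetSum F' (f := fun t n => b t (z n)
      (S.m (fun γ => f (s * (γ * t))) (S.ζ (z n)) - S.L (z n) (e t))) fun t ht =>
      tb (fun n => ((a4 t ht).ct (z n)).1) (by
        simpa only [mul_assoc, add_zero, sub_add_sub_cancel] using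
          (hW.left (hf.right hG t) s).add (he t))
    rw [Finset.sum_const_zero] at h2
    refine h2.congr fun n => ?_
    rw [map_sum, ← Finset.sum_sub_distrib]
    exact Finset.sum_congr rfl fun t ht => by rw [map_sub, Hm.L (a4 t ht)]
  set η := p (∑ t ∈ F', b t 1 (e t))
  have h2 : ‖η‖ ≤ 2 := by
    refine (ge_of_tendsto' ((h1 1).norm.const_add 2) fun n => ?_).trans (by simp)
    rw [← C.s.norm_π (z n), ← hL.p_L]
    refine (hL.p_le _).trans ((norm_le_norm_add_norm_sub _ _).trans (add_le_add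
      (le_trans (le_of_eq ?_) ((norm_m_unit S hf.1 _).trans ((S.L_le (z n) _).trans a5))) le_rfl))
    rw [map_sum, map_sum]
    refine congrArg _ (Finset.sum_congr rfl fun t ht => ?_)
    simp only [← Hm.L (a4 t ht), S.L_ζ, mul_one, one_mul, (a4 t ht).hom _ _ (bd_of hf.1)]
  have h3 := tendsto_finsetSum F fun s _ => tendsto_op (h1 s) (l s)
  simp only [map_sub, Finset.sum_sub_distrib, a3, map_sum (l _), Finset.sum_const_zero] at h3
  refine ⟨η, ?_⟩
  filter_upwards [h3.norm.eventually_le_const (show _ < ε / 6 by simpa using hε),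
    hm _ (a1.sub C.t.M_one) η (ε / 6) (by positivity)] with n c1 c2
  have c3 : ‖x (C.s.π (z n) η) - C.s.π (z n) η‖ ≤ ε / 6 * 2 + ε / 6 :=
    c2.trans (add_le_add_left (mul_le_mul a2 h2 (norm_nonneg _) (by positivity)) _)
  rw [← C.s.norm_π (z n), map_sub, pi_ap_inv]
  linarith [(norm_sub_le_norm_sub_add_norm_sub _ _ _).trans (add_le_add (a6 f hf.1 (z n))
    ((norm_sub_le_norm_sub_add_norm_sub _ _ _).trans (add_le_add c1 c3)))]

end Vale.Agent.P092BF
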