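import Vale.Agent.P092BF.Fin
import Vale.Agent.P092HR.Defs
import Vale.Agent.P092NW.Ph2
import Vale.Agent.P092RK.Lk

/-!
P092, higher rank: the output of phase one.
-/

set_option linter.unusedSectionVars false
set_option linter.unusedVariables false

open Filter Topology ContinuousLinearMap MeasureTheory

namespace Vale.Agent.P092HR

open Vale.Agent.P092CP Vale.Agent.P092RD Vale.Agent.P092GK Vale.Agent.P092TH Vale.Agent.P092BF
open Vale.Agent.P092NW (zp phase1)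

variable {k : Type} [NontriviallyNormedField k] [ProperSpace k] {G K : Type} [Group G]
  [TopologicalSpace G] [IsTopologicalGroup G] [LocallyCompactSpace G] [SecondCountableTopology G]
  [T2Space G] [MeasurableSpace G] [BorelSpace G] [NormedAddCommGroup K] [InnerProductSpace ℂ K]
  [CompleteSpace K] {μ : Measure G} [μ.IsHaarMeasure] {W : Set (K →L[ℂ] K)} {r : ℕ}
  {F : FlD k G r}

theorem sl_cj {C : Cpl μ μ W} {z : ℕ → G} {T e : K →L[ℂ] K} (h : SL C z T e) (p : G) :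
    SL C (fun n => (p * (z n)⁻¹ * p⁻¹)⁻¹) T (C.s.π p * e * C.s.π p⁻¹) := fun Q hQ ξ ε hε =>
  (h _ (hQ.image (continuous_mul_const p)) (C.s.π p⁻¹ ξ) ε hε).mono fun n hn q hq => by
    simpa only [mul_inv_rev, inv_inv, ← pi_ap, mul_ap, pi_inv_ap] using hn _ ⟨q, hq, rfl⟩

/-- **Phase one** -/
theorem p1 (g : Gr F) (C : Cpl μ μ W) : ∃ z L kl E, P1 F C z L kl E := by
  obtain ⟨h, ⟨s, N, τ, w, hp⟩, hg, hc, hK, h2⟩ := g
  obtain ⟨-, A, Φ, ω, hω, n, L, hP⟩ := phase1 C h hp hg hc hK h2 h le_rfl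
  obtain ⟨D, kl, t, kr, hk⟩ := h.exists_kak
  have hL := P092RK.lk Φ hω
  obtain ⟨E, hE⟩ := b5 h hk (P092GH.hmg h hp (hg ▸ dense_univ)) hL hP
  have hd : ∀ m, F.Dom (zp F n m) := fun m => h.a_dom fun i => Int.natCast_nonneg _
  have hZ : ∀ a ∈ F.Z, F.n₀⁻¹ * a * F.n₀ ∈ F.Z := fun a ha => (h.n₀Z _).2 (by simpa [mul_assoc])
  have cen : ∀ m, ∀ a ∈ F.Z, F.n₀ * (zp F n m)⁻¹ * F.n₀⁻¹ * a =
      a * (F.n₀ * (zp F n m)⁻¹ * F.n₀⁻¹) := fun m a ha => by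
    have : Commute (zp F n m) (F.n₀⁻¹ * a * F.n₀) := h.a_comm _ (hZ a ha)
    simpa [mul_assoc] using congrArg (fun x => F.n₀ * x * F.n₀⁻¹) this.inv_left.eq
  have hB : Bnd C (fun m => (F.n₀ * (zp F n m)⁻¹ * F.n₀⁻¹)⁻¹) F.κ (fun x => (kl x : YY F))
      (sg C.s F.n₀ E) := by
    have := h.compactY Finset.univ
    let _ := h.metricY Finset.univ
    exact BF.bnd ⟨fun f => sl_iff.1 (sl_cj (hE.sl f) _), fun τ => sl_iff.1 (by
      simpa only [mul_zero, zero_mul] using sl_cj (hE.wall τ) F.n₀)⟩ (h.fg hk) h.tg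
  refine ⟨_, F.c⁻¹.mulVecLin ∘ₗ L ∘ₗ .funLeft ℝ ℝ F.ι, kl, _, ⟨hB.isP, hB.cm, hB.cov,
    fun p hp => hB.inv p ?_⟩, ⟨D, t, kr, hk⟩, fun m => h.n₀_dom (hd m), cen, fun i => ?_, hB.sl,
    hB.wall, fun Q hQ ε hε => ?_⟩
  · obtain ⟨a, ha, u, hu, rfl⟩ := h.P_univ.1 hp
    obtain ⟨Q, hQ, -, h1⟩ := h.up_bdd (isCompact_singleton (x := u))
    refine ⟨_, hQ.image (continuous_const_mul a), .of_forall fun m =>
      ⟨_, h1 _ (h.n₀_dom (hd m)) u rfl hu, ?_⟩⟩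
    have : Commute _ a := cen m a ha
    rw [inv_inv, ← mul_assoc _ a, this.inv_left.eq]
    simp only [mul_assoc]
  · obtain ⟨i, rfl⟩ := F.ι.surjective i
    simp only [h.ℓ_n₀ (hd _).1]
    simpa [zp, h.ℓ_a] using
      (tendsto_natCast_atTop_atTop.comp (hP.top i)).const_mul_atTop h.β_pos
  · obtain ⟨c, c1, hc⟩ := F.co_bound
    obtain ⟨R, hR⟩ := (tight h hL hP _ (hQ.image (continuous_mul_const F.n₀)) C.t.Ω ε hε).exists
    refine ⟨c * R, fun a ha => (hR _ (hZ _ (F.Z.inv_mem ha))).mono fun m hm q hq => ?_⟩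
    have e1 : a * (F.n₀ * (zp F n m)⁻¹ * F.n₀⁻¹) =
        F.n₀ * (F.n₀⁻¹ * a⁻¹ * F.n₀ * zp F n m)⁻¹ * F.n₀⁻¹ := by rw [← cen m a ha]; group
    have e2 : LinearMap.funLeft ℝ ℝ F.ι (F.ℓ (a * (F.n₀ * (zp F n m)⁻¹ * F.n₀⁻¹))) =
        F.ℓ (F.n₀⁻¹ * a⁻¹ * F.n₀ * zp F n m) := funext fun i =>
      e1 ▸ h.ℓ_n₀ (F.Z.mul_mem (hZ _ (F.Z.inv_mem ha)) (hd m).1) i
    rw [LinearMap.comp_apply, LinearMap.comp_apply, e2, e1, show ∀ x, q * (F.n₀ * x⁻¹ * F.n₀⁻¹)⁻¹ *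
      F.n₀ = q * F.n₀ * x from fun x => by group]
    refine le_trans ?_ (hm _ ⟨q, hq, rfl⟩)
    exact (P_le_add C.t (isOpen_lt continuous_const
      (h.cont_κ.sub continuous_const).norm).measurableSet (meas_lam h R _) .empty (fun x hx =>
        .inl (lt_of_mul_lt_mul_left (hx.trans_le ((congrArg _ (F.co_sub _ _).symm).trans_le
          (hc _))) (zero_le_one.trans c1))) _).trans_eq
      (by rw [C.t.P_empty, zero_apply, norm_zero, add_zero])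

end Vale.Agent.P092HR
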