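import Vale.Agent.P092BF.Wnd
import Vale.Agent.P092HR.Defs
import Vale.Agent.P092GK.Flg

/-!
P092, higher rank: windows along the path of phase one.
-/

set_option linter.unusedSectionVars false
set_option linter.unusedVariables false

open Filter Topology ContinuousLinearMap MeasureTheory

namespace Vale.Agent.P092HR

open Vale.Agent.P092CP Vale.Agent.P092RD Vale.Agent.P092GK Vale.Agent.P092TH Vale.Agent.P092BF

variable {k : Type} [NontriviallyNormedField k] [ProperSpace k] {G K : Type} [Group G]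
  [TopologicalSpace G] [IsTopologicalGroup G] [LocallyCompactSpace G] [SecondCountableTopology G]
  [T2Space G] [MeasurableSpace G] [BorelSpace G] [NormedAddCommGroup K] [InnerProductSpace ℂ K]
  [CompleteSpace K] {μ : Measure G} [μ.IsHaarMeasure] {W : Set (K →L[ℂ] K)} {r : ℕ}
  {F : FlD k G r} {C : Cpl μ μ W} {z : ℕ → G} {L : Aa r →ₗ[ℝ] Aa r} {kl : G → G}
  {E : POM (YY F) K} {U : Ultrafilter ℕ} {B V : Set G}

theorem up_contr (h : Fl F) {ι : Type} {l : Filter ι} {z : ι → G} (hz : ∀ n, F.Dom (z n))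
    (top : ∀ i, Tendsto (fun n => F.ℓ (z n) i) l atTop) {u : G} (hu : u ∈ F.Up) :
    Tendsto (fun n => (z n)⁻¹ * u * z n) l (𝓝 1) := fun N hN => by
  obtain ⟨T, -, hT⟩ := h.up_contr (isCompact_singleton (x := u)) hN
  exact mem_map.2 ((eventually_all.2 fun j => (top j).eventually_ge_atTop T).mono fun n hn =>
    hT _ (hz n).1 hn u rfl hu)

theorem car_pf (hU : (U : Filter ℕ) ≤ atTop) (hB : IsCompact B) {a : ℕ → G} {Q : Set G}
    (hQ : IsCompact Q) (ha : ∀ n, z n * (a n)⁻¹ ∈ Q) (hc : ∀ n, Commute (z n) (a n)) :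
    Car U (fun n => un μ B (a n)) (pf fun n => (z n)⁻¹) :=
  car_un (fun _ => hB.measurableSet) fun s hs => hU ((ev_pf.1 hs _ (hB.inv.mul hQ)).mono
    fun n hn u hu => by
      have := hn _ (Set.mul_mem_mul (Set.inv_mem_inv.2 hu) (ha n))
      rwa [(hc n).inv_right.eq, ← mul_assoc, mul_inv_cancel_right, ← mul_inv_rev] at this)

namespace P1

variable (p : P1 F C z L kl E)
include p

theorem bf : BF C (pf fun n => (z n)⁻¹) F.κ (fun x => (kl x : YY F)) E :=
  ⟨fun f => sl_iff.1 (p.sl f), fun τ => sl_iff.1 (p.wall τ)⟩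

theorem car (hU : (U : Filter ℕ) ≤ atTop) (hB : IsCompact B) {a : G} (ha : a ∈ F.Z) :
    Car U (fun n => un μ B (a * z n)) (pf fun n => (z n)⁻¹) :=
  car_pf hU hB (isCompact_singleton (x := a⁻¹)) (fun n => by simp)
    fun n => Commute.mul_right (p.cen n a ha) (.refl _)

theorem car1 (hU : (U : Filter ℕ) ≤ atTop) (hB : IsCompact B) :
    Car U (fun n => un μ B (z n)) (pf fun n => (z n)⁻¹) := by
  simpa only [one_mul] using p.car hU hB F.Z.one_mem

theorem ai (h : Fl F) (hU : (U : Filter ℕ) ≤ atTop) (hB : IsCompact B) {u : G} (hu : u ∈ F.Up) :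
    AI U (fun n => un μ B (z n)) u :=
  ai_of_tendsto hB ((up_contr h p.dom p.top hu).mono_left hU)

variable (h : Fl F) {ι : Type} {U' : Ultrafilter ι} {ν : ι → Measure G}
  [∀ n, IsProbabilityMeasure (ν n)] (hc : Car U' ν (pf fun n => (z n)⁻¹)) (hV : Bp μ V)
include h hc hV

/-- `E` is the limit of the windows on the flag space -/
theorem lm' (y : ι → YY F) : Lm C U' ν V y E := by
  obtain ⟨Q, t, kr, hK⟩ := p.kak
  have := C.t.right
  have := h.compactY Finset.univ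
  let _ := h.metricY Finset.univ
  exact p.bf.lm (h.fg hK) h.tg (h.avg μ hK) hc hV y

/-- the module property, for every cone -/
theorem mod' {Z : Type} [TopologicalSpace Z] [MeasurableSpace Z] [BorelSpace Z]
    [LocallyCompactSpace Z] [T2Space Z] [SecondCountableTopology Z] [MulAction G Z]
    [ContinuousSMul G Z] {dir : Z → YY F} (hd : Continuous dir)
    (he : ∀ (k : G) z, dir (k • z) = k • dir z) {ζ : ι → Z} {θ : POM Z K} (hθ : Lm C U' ν V ζ θ)
    (φ : YY F → ℂ) (f : Z → ℂ) (hφ : Bd φ) (hf : Bd f) : θ.f (φ ∘ dir * f) = E.f φ * θ.f f := by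
  obtain ⟨Q, t, kr, hK⟩ := p.kak
  have := C.t.right
  have := h.compactY Finset.univ
  let _ := h.metricY Finset.univ
  exact p.bf.mod (h.fg hK) h.tg (h.avg μ hK) hc hV hd he hθ φ f hφ hf

end P1

theorem P1.lm (g : Gr F) (p : P1 F C z L kl E) (hU : (U : Filter ℕ) ≤ atTop) (hB : Bp μ B)
    (hV : Bp μ V) (y : ℕ → YY F) : Lm C U (fun n => un μ B (z n)) V y E :=
  have := fun n => prob_un hB.cpt hB.pos (z n)
  p.lm' g.fl (p.car1 hU hB.cpt) hV y

theorem lm_mod (g : Gr F) (p : P1 F C z L kl E) (hU : (U : Filter ℕ) ≤ atTop) (hB : Bp μ B)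
    (hV : Bp μ V) {ζ : ℕ → ZZ F} {θ₀ : POM (ZZ F) K}
    (hθ : Lm C U (fun n => un μ B (z n)) V ζ θ₀) : Inv C F.Up θ₀ ∧
      ∀ φ f, Bd φ → Bd f → θ₀.f (φ ∘ F.dir _ _ * f) = E.f φ * θ₀.f f :=
  have := fun n => prob_un hB.cpt hB.pos (z n)
  have := g.fl.isClosed_N Finset.univ
  ⟨hθ.isInv hV fun u hu => p.ai g.fl hU hB.cpt hu, p.mod' g.fl (p.car1 hU hB.cpt) hV
    (g.fl.cont_dir g.fl.Ht_N _) (g.fl.dir_smul g.fl.Ht_N _) hθ⟩

end Vale.Agent.P092HR
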