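import Vale.Agent.P092BF.Defs
import Vale.Agent.P092.H15.HMAbs

/-!
P092, block B5: mixing, and the calculus of strong limits along a filter on the source group.
-/

set_option linter.unusedSectionVars false
set_option linter.unusedVariables false

open Filter Topology ContinuousLinearMap MeasureTheory
open scoped InnerProductSpace

namespace Vale.Agent.P092BF

open Vale.Agent.P092CP
open Vale.Agent.P092.RC (Cm)
open Vale.Agent.P092.H325 (exists_ulim)

variable {G G' K : Type} [Group G] [TopologicalSpace G] [IsTopologicalGroup G]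
  [LocallyCompactSpace G] [SecondCountableTopology G] [T2Space G] [MeasurableSpace G] [BorelSpace G]
  [Group G'] [TopologicalSpace G'] [IsTopologicalGroup G'] [LocallyCompactSpace G']
  [SecondCountableTopology G'] [T2Space G'] [MeasurableSpace G'] [BorelSpace G']
  [NormedAddCommGroup K] [InnerProductSpace ℂ K] [CompleteSpace K] {μ : Measure G}
  [μ.IsHaarMeasure] {μ' : Measure G'} [μ'.IsHaarMeasure] {W : Set (K →L[ℂ] K)}
  {C : Cpl μ μ' W} {z : ℕ → G} {T T' e e' : K →L[ℂ] K} {l l' : Filter G}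

/-- **Mixing** from the Howe-Moore property -/
theorem mix_of (C : Cpl μ μ' W) (h : P092.H15.HMG G) (hz : Tendsto z atTop (cocompact G)) :
    Mix C z := fun x hx ξ ε hε => by
  have ha := (C.M_adj hx).mul hx
  have h1 : Tendsto (fun n => ⟪ξ, (C.s.π (z n)⁻¹ * (adjoint x * x) * C.s.π (z n)⁻¹⁻¹) ξ⟫_ℂ) atTop
      (𝓝 (C.t.τ (adjoint x * x) * ⟪ξ, ξ⟫_ℂ)) := by
    refine (tendsto_iff_ultrafilter _ _ _).2 fun U hU => ?_
    obtain ⟨b, -, hb⟩ := exists_ulim U _ _ fun n => C.s.norm_conj_le (z n)⁻¹ (adjoint x * x)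
    have h2 : C.t.M b := Side.M.of_weak (.of_forall fun n => C.M_σ ha _) fun ξ η => hb η ξ
    obtain ⟨c, rfl⟩ := C.irr b h2.1 (cp_of_conj fun s => C.bimM.eq_of_v (C.M_σ h2 s) h2 (by
      rw [← C.admM.rep_v s h2]
      refine h.fixed C.admM.urep U (b := fun n => (z n)⁻¹)
        ((Homeomorph.inv G).isClosedEmbedding.tendsto_cocompact.comp (hz.mono_left hU))
        (tendsto_const_nhds (x := C.t.vM (adjoint x * x))) (fun η => ?_) s
      simp only [C.admM.rep_v _ ha, Submodule.coe_inner, C.t.coe_vM h2, C.t.coe_vM (C.M_σ ha _),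
        ← inner_conj_symm _ (η : K)]
      exact (Complex.continuous_conj.tendsto _).comp (hb _ _))) h2.2
    have h3 : C.t.τ (adjoint x * x) = c := by
      have := tendsto_nhds_unique (tendsto_const_nhds.congr fun n => (C.τ_σ ha (z n)⁻¹).symm)
        (hb C.t.Ω C.t.Ω)
      exact this.trans ((C.t.τ_smul c 1).trans (by rw [C.t.τ_one, mul_one]))
    rw [h3, ← inner_smul_right]
    exact hb ξ ξ
  have h2 := (Real.continuous_sqrt.tendsto _).comp (h1.norm)
  rw [Side.τ_adj_mul, norm_mul, inner_self_eq_norm_sq_to_K, inner_self_eq_norm_sq_to_K, norm_pow,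
    norm_pow, ← mul_pow, Real.sqrt_sq (by positivity)] at h2
  simp only [Complex.coe_algebraMap, Complex.norm_real, norm_norm] at h2
  filter_upwards [h2.eventually_le_const (lt_add_of_pos_right _ hε)] with n hn
  rw [Function.comp, inv_inv, mul_ap, mul_ap, mul_ap, ← C.s.adj, adjoint_inner_right,
    adjoint_inner_right, inner_self_eq_norm_sq_to_K, norm_pow, Real.sqrt_sq (norm_nonneg _)] at hn
  simpa using hn

/-- strong limits along a filter on the source group -/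
def SF (C : Cpl μ μ' W) (l : Filter G) (T e : K →L[ℂ] K) : Prop :=
  ∀ ξ, Tendsto (fun g => T (C.s.π g ξ) - C.s.π g (e ξ)) l (𝓝 0)

/-- the filter of a family of sets -/
def af {ι : Type} (U : Filter ι) (A : ι → Set G) : Filter G := U.bind fun n => 𝓟 (A n)

theorem ev_af {ι : Type} {U : Filter ι} {A : ι → Set G} {p : G → Prop} :
    (∀ᶠ g in af U A, p g) ↔ ∀ᶠ n in U, ∀ g ∈ A n, p g := eventually_bind

/-- the filter of a path -/
def pf (z : ℕ → G) : Filter G := ⨆ Q ∈ {Q : Set G | IsCompact Q}, af atTop fun n => (· * z n) '' Q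

theorem ev_pf {p : G → Prop} :
    (∀ᶠ g in pf z, p g) ↔ ∀ Q, IsCompact Q → ∀ᶠ n in atTop, ∀ q ∈ Q, p (q * z n) := by
  simp only [pf, eventually_iSup, ev_af, Set.forall_mem_image, Set.mem_ofPred_eq]

theorem map_le_pf : map z atTop ≤ pf z := fun s hs =>
  (ev_pf.1 hs {1} isCompact_singleton).mono fun n hn => one_mul (z n) ▸ hn 1 rfl

instance : (pf z).NeBot := neBot_of_le map_le_pf

theorem sf_iff : SF C l T e ↔ ∀ ξ (ε : ℝ), 0 < ε →
    ∀ᶠ g in l, ‖T (C.s.π g ξ) - C.s.π g (e ξ)‖ ≤ ε :=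
  forall_congr' fun ξ => by
    simp only [Metric.nhds_basis_closedBall.tendsto_right_iff, mem_closedBall_zero_iff]

theorem sl_iff : SL C z T e ↔ SF C (pf z) T e := by
  simp only [sf_iff, ev_pf]
  exact ⟨fun h ξ ε hε Q hQ => h Q hQ ξ ε hε, fun h Q hQ ξ ε hε => h ξ ε hε Q hQ⟩

theorem sf_conj : SF C l T e ↔
    ∀ ξ, Tendsto (fun g => (C.s.π g⁻¹ * T * C.s.π g⁻¹⁻¹) ξ) l (𝓝 (e ξ)) :=
  forall_congr' fun ξ => by
    rw [tendsto_zero_iff_norm_tendsto_zero, tendsto_iff_norm_sub_tendsto_zero (b := e ξ)]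
    refine tendsto_congr fun g => ?_
    rw [← C.s.norm_π g⁻¹, map_sub, pi_inv_ap, inv_inv]; rfl

theorem tendsto_π {ι : Type} {U : Filter ι} {v : ι → K} (h : Tendsto v U (𝓝 0)) (g : ι → G) :
    Tendsto (fun n => C.s.π (g n) (v n)) U (𝓝 0) := by
  rw [tendsto_zero_iff_norm_tendsto_zero] at h ⊢
  simpa only [C.s.norm_π] using h

theorem tendsto_op {ι E : Type} [NormedAddCommGroup E] [NormedSpace ℂ E] {U : Filter ι} {v : ι → E}
    (h : Tendsto v U (𝓝 0)) (T : E →L[ℂ] K) : Tendsto (fun n => T (v n)) U (𝓝 0) := by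
  simpa only [map_zero, Function.comp_def] using (T.continuous.tendsto 0).comp h

namespace SF

theorem mono (h : SF C l T e) (hl : l' ≤ l) : SF C l' T e := fun ξ => (h ξ).mono_left hl

theorem of_cp (h : Cp C.s.π T) : SF C l T T := fun ξ => by
  simpa only [h.ap, sub_self] using tendsto_const_nhds

theorem add (h : SF C l T e) (h' : SF C l T' e') : SF C l (T + T') (e + e') := fun ξ => by
  simpa only [add_zero, add_apply, map_add, add_sub_add_comm] using (h ξ).add (h' ξ)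

theorem smul (c : ℂ) (h : SF C l T e) : SF C l (c • T) (c • e) := fun ξ => by
  simpa only [smul_zero, smul_apply, map_smul, smul_sub] using (h ξ).const_smul c

theorem sub (h : SF C l T e) (h' : SF C l T' e') : SF C l (T - T') (e - e') := by
  simpa only [neg_one_smul, ← sub_eq_add_neg] using h.add (h'.smul (-1))

theorem mul (h : SF C l T e) (h' : SF C l T' e') : SF C l (T * T') (e * e') := fun ξ => by
  simpa only [add_zero, map_sub, sub_add_sub_cancel, mul_ap] using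
    (tendsto_op (h' ξ) T).add (h (e' ξ))

theorem norm_le [l.NeBot] (h : SF C l T e) : ‖e‖ ≤ ‖T‖ :=
  opNorm_le_bound _ (norm_nonneg _) fun ξ => le_of_tendsto' (sf_conj.1 h ξ).norm fun g =>
    le_of_opNorm_le _ (C.s.norm_conj_le _ _) _

theorem unique [l.NeBot] (h : SF C l T e) (h' : SF C l T e') : e = e' :=
  ContinuousLinearMap.ext fun ξ => tendsto_nhds_unique (sf_conj.1 h ξ) (sf_conj.1 h' ξ)

theorem cm [l.NeBot] (h : SF C l T e) (hT : Cm W T) : Cm W e :=
  cm_of_weak (l := l) (.of_forall fun g => C.s.conj T hT g⁻¹) fun ξ η =>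
    tendsto_const_nhds.inner (sf_conj.1 h ξ)

theorem inner (h : SF C l T e) (ξ η : K) :
    Tendsto (fun g => ⟪C.s.π g η, T (C.s.π g ξ)⟫_ℂ) l (𝓝 ⟪η, e ξ⟫_ℂ) :=
  (tendsto_const_nhds.inner (sf_conj.1 h ξ)).congr fun g => by
    rw [inv_inv, mul_ap, mul_ap, ← C.s.adj, adjoint_inner_right]

theorem conj (h : SF C l T e) (k : G') :
    SF C l (C.t.π k * T * C.t.π k⁻¹) (C.t.π k * e * C.t.π k⁻¹) :=
  ((of_cp fun g => (C.comm g k).symm).mul h).mul (of_cp fun g => (C.comm g k⁻¹).symm)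

theorem of_near (h : ∀ ε : ℝ, 0 < ε → ∃ T' e', SF C l T' e' ∧ ‖T - T'‖ ≤ ε ∧ ‖e - e'‖ ≤ ε) :
    SF C l T e := sf_iff.2 fun ξ ε hε => by
  obtain ⟨δ, h1, h2⟩ := exists_pos_mul_lt hε (2 * ‖ξ‖ + 1)
  obtain ⟨T', e', a, b, c⟩ := h δ h1
  filter_upwards [sf_iff.1 a ξ δ h1] with g hg
  have h3 := (T - T').le_of_opNorm_le b (C.s.π g ξ)
  have h4 := (e - e').le_of_opNorm_le c ξ
  rw [← C.s.norm_π g, sub_apply, map_sub] at h4
  rw [C.s.norm_π, sub_apply] at h3
  have := norm_add₃_le (a := T (C.s.π g ξ) - T' (C.s.π g ξ))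
    (b := T' (C.s.π g ξ) - C.s.π g (e' ξ)) (c := -(C.s.π g (e ξ) - C.s.π g (e' ξ)))
  rw [norm_neg, sub_add_sub_cancel, ← sub_eq_add_neg, sub_sub_sub_cancel_right] at this
  linarith

theorem exists_of_near [l.NeBot] (h : ∀ ε : ℝ, 0 < ε → ∃ T' e', SF C l T' e' ∧ ‖T - T'‖ ≤ ε) :
    ∃ e, SF C l T e := by
  choose T' e' a b using fun n : ℕ => h (1 / (n + 1)) Nat.one_div_pos_of_nat
  have h0 := tendsto_one_div_add_atTop_nhds_zero_nat (𝕜 := ℝ)
  obtain ⟨e, he⟩ := cauchySeq_tendsto_of_complete (u := e') (cauchySeq_of_le_tendsto_0'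
    (fun n : ℕ => 2 * (1 / ((n : ℝ) + 1))) (fun n m hnm => by
      rw [dist_eq_norm]
      refine ((a n).sub (a m)).norm_le.trans ((norm_sub_le_norm_sub_add_norm_sub _ T _).trans ?_)
      have := Nat.one_div_le_one_div (α := ℝ) hnm
      linarith [b n, b m, norm_sub_rev T (T' n)]) (by simpa using h0.const_mul 2))
  refine ⟨e, of_near fun ε hε => ?_⟩
  obtain ⟨n, h1, h2⟩ := ((h0.eventually_le_const hε).and
    ((tendsto_iff_norm_sub_tendsto_zero.1 he).eventually_le_const hε)).exists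
  exact ⟨_, _, a n, (b n).trans h1, by rwa [norm_sub_rev]⟩

/-- from the trace vector to all vectors -/
theorem of_Ω (hT : Cm W T) (he : Cm W e) (h : ∀ k : G', Tendsto (fun g =>
    (C.s.π g⁻¹ * T * C.s.π g⁻¹⁻¹) (C.t.π k C.t.Ω)) l (𝓝 (e (C.t.π k C.t.Ω)))) : SF C l T e := by
  refine sf_conj.2 (tendsto_of_total C.total (.of_forall fun g => C.s.norm_conj_le _ _) ?_)
  rintro _ ⟨w, k, hw, rfl⟩
  rw [← mul_ap e, ← hw e he]
  exact ((w.continuous.tendsto _).comp (h k)).congr fun g => ap_eq (hw _ (C.s.conj T hT g⁻¹)) _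

theorem exists_of_Ω [l.NeBot] (hT : Cm W T) (h : ∀ k : G', ∃ η, Tendsto (fun g =>
    (C.s.π g⁻¹ * T * C.s.π g⁻¹⁻¹) (C.t.π k C.t.Ω)) l (𝓝 η)) : ∃ e, SF C l T e := by
  obtain ⟨e, -, he⟩ := exists_ulim (Ultrafilter.of l) _ _ fun g => C.s.norm_conj_le g⁻¹ T
  refine ⟨e, of_Ω hT (cm_of_weak (.of_forall fun g => C.s.conj T hT g⁻¹) fun ξ η => he η ξ)
    fun k => ?_⟩
  obtain ⟨η, hη⟩ := h k
  rwa [ext_inner_left ℂ fun ζ => tendsto_nhds_unique (he ζ _)
    (tendsto_const_nhds.inner (hη.mono_left (Ultrafilter.of_le l)))]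

end SF

/-- the limit commutes with the elements which stay bounded under conjugation by the path -/
theorem SL.inv (h : SL C z T e) {p : G}
    (hp : ∃ Q : Set G, IsCompact Q ∧ ∀ᶠ n in atTop, z n * p * (z n)⁻¹ ∈ Q) :
    C.s.π p * e * C.s.π p⁻¹ = e := by
  obtain ⟨Q, hQ, hp⟩ := hp
  have h1 : Tendsto (fun n => z n * p) atTop (pf z) := fun s hs =>
    ((ev_pf.1 hs Q hQ).and hp).mono fun n a =>
      (congrArg s (inv_mul_cancel_right (z n * p) (z n))).mp (a.1 _ a.2)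
  refine ContinuousLinearMap.ext fun ξ => sub_eq_zero.1 (norm_eq_zero.1 ?_)
  have h2 := (((sl_iff.1 h ξ).mono_left map_le_pf).comp tendsto_map).sub
    ((sl_iff.1 h (C.s.π p⁻¹ ξ)).comp h1)
  refine tendsto_nhds_unique (tendsto_const_nhds.congr fun n => ?_)
    (by simpa only [sub_zero, norm_zero] using h2.norm)
  simp only [Function.comp, ← pi_ap, pi_ap_inv, sub_sub_sub_cancel_left, ← map_sub, C.s.norm_π]
  rfl

/-- **The left factor**: from the path to a bounded neighbourhood of it -/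
theorem sl_of (hm : Mix C z) {F : G' → ℂ} (hF : Bd F)
    (h : ∀ γ : C.t.Γ, SF C (map z atTop) (C.t.m fun x => F (x * γ)) e) : SL C z (C.t.m F) e := by
  have key : ∀ u, C.t.M u → ∀ ξ (ε : ℝ), 0 < ε → ∀ᶠ n in atTop,
      ‖C.t.m F (u (C.s.π (z n) ξ)) - u (C.s.π (z n) (e ξ))‖ ≤ ε := fun u hu ξ ε hε => by
    obtain ⟨δ, h1, h2⟩ := exists_pos_mul_lt hε (‖C.t.m F‖ * (‖ξ‖ + 1) + (‖e ξ‖ + 1) + 1)
    obtain ⟨A, hA⟩ := ((tendsto_iff_norm_sub_tendsto_zero.1 (C.t.hasSum_fc u)).eventually_le_const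
      h1).exists
    have h3 : C.t.M (∑ γ ∈ A, C.t.fc γ u - u) := (Side.M.sum A fun γ _ => C.t.M_fc hu).sub hu
    have h4 := tendsto_finsetSum A fun γ _ =>
      tendsto_op ((h γ⁻¹ ξ).comp tendsto_map) (C.t.fc γ u)
    rw [Finset.sum_const_zero] at h4
    rw [← sum_apply, ← sub_apply] at hA
    filter_upwards [hm _ h3 ξ δ h1, hm _ h3 (e ξ) δ h1, h4.norm.eventually_le_const
      (norm_zero.trans_lt h1)] with n a b c
    have h5 : ∀ γ, C.t.fc γ u * C.t.m (fun x => F (x * (γ⁻¹ : C.t.Γ))) = C.t.m F * C.t.fc γ u :=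
      fun γ => by simpa using C.t.deg_fc (γ := γ) hu.1 _ (hF.comp (measurable_mul_const (γ : G')⁻¹))
    simp only [Function.comp, map_sub, ← mul_ap (C.t.fc _ u), h5] at c
    simp only [mul_ap, Finset.sum_sub_distrib, ← map_sum, ← sum_apply] at c
    have h6 := (C.t.m F).le_opNorm_of_le (a.trans (add_le_add_left
      (mul_le_mul_of_nonneg_right hA (norm_nonneg ξ)) δ))
    have h7 := b.trans (add_le_add_left (mul_le_mul_of_nonneg_right hA (norm_nonneg _)) δ)
    rw [sub_apply] at h6 h7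
    rw [map_sub, norm_sub_rev] at h6
    refine (norm_sub_le_norm_sub_add_norm_sub _ _ _).trans ((add_le_add h6
      ((norm_sub_le_norm_sub_add_norm_sub _ _ _).trans (add_le_add c h7))).trans (by linarith))
  intro Q hQ ξ ε hε
  have e1 : ∀ q g, ‖C.t.m F (C.s.π (q * g) ξ) - C.s.π (q * g) (e ξ)‖ =
      ‖C.t.m F (adjoint (C.u q⁻¹) (C.s.π g ξ)) - adjoint (C.u q⁻¹) (C.s.π g (e ξ))‖ := fun q g => by
    have := C.σ_m q⁻¹ hF
    rw [inv_inv] at this
    rw [← C.s.norm_π q⁻¹, ← C.norm_u q⁻¹ (_ - adjoint _ _), map_sub, map_sub, ← pi_ap, ← pi_ap,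
      pi_inv_ap, ← mul_ap (C.u _) (adjoint _), C.u_mul_adj]
    exact congrArg (fun v => ‖v - _‖) (ap_eq this _)
  simp only [e1]
  refine hQ.induction_on (by simp) (fun s t hst ht => ht.mono fun n hn q hq => hn q (hst hq))
    (fun s t hs ht => (hs.and ht).mono fun n hn q hq => hq.elim (hn.1 q) (hn.2 q)) fun q₀ _ => ?_
  have h1 : ∀ η, Tendsto (fun p : G × G => (adjoint (C.u p.1⁻¹) - adjoint (C.u q₀⁻¹))
      (C.s.π p.2 η)) (𝓝 q₀ ×ˢ ⊤) (𝓝 0) := fun η => by
    have hM : ∀ q, C.t.M (C.u q⁻¹ - C.u q₀⁻¹) := fun q => (C.u_M _).sub (C.u_M _)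
    have h2 := C.tendsto_of_Ω (l := 𝓝 q₀ ×ˢ (⊤ : Filter G)) (c := 1 + 1)
      (F := fun p => C.s.π p.2⁻¹ * adjoint (C.u p.1⁻¹ - C.u q₀⁻¹) * C.s.π p.2⁻¹⁻¹)
      (.of_forall fun p => ⟨C.M_σ (C.M_adj (hM _)) _, (C.s.norm_conj_le _ _).trans (by
        rw [LinearIsometryEquiv.norm_map]
        exact norm_sub_le_of_le (opNorm_le_bound _ zero_le_one fun ξ => by rw [C.norm_u, one_mul])
          (opNorm_le_bound _ zero_le_one fun ξ => by rw [C.norm_u, one_mul]))⟩) C.t.M_zero (by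
        rw [zero_apply, tendsto_zero_iff_norm_tendsto_zero]
        simp only [C.norm_σ_Ω (C.M_adj (hM _)), C.norm_adj_Ω (hM _)]
        exact (tendsto_iff_norm_sub_tendsto_zero.1 (((C.cont_u C.t.Ω).comp
          continuous_inv).tendsto q₀)).comp tendsto_fst) η
    rw [zero_apply, tendsto_zero_iff_norm_tendsto_zero] at h2
    rw [tendsto_zero_iff_norm_tendsto_zero]
    simpa only [mul_ap, C.s.norm_π, inv_inv, map_sub] using h2
  have h3 := ((tendsto_op (h1 ξ) (C.t.m F)).sub (h1 (e ξ))).norm.eventually_le_const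
    (show _ < ε / 2 by simpa using hε)
  obtain ⟨s, hs, t, ht, hst⟩ := mem_prod_iff.1 h3
  refine ⟨s, nhdsWithin_le_nhds hs, (key _ (C.M_adj (C.u_M q₀⁻¹)) ξ _ (half_pos hε)).mono
    fun n hn q hq => ?_⟩
  have h4 := hst (Set.mk_mem_prod hq (mem_top.1 ht ▸ Set.mem_univ (z n)))
  simp only [Set.mem_ofPred_eq, sub_apply, map_sub] at h4
  rw [sub_sub_sub_comm] at h4
  linarith [norm_le_norm_add_norm_sub' _ _ |>.trans (add_le_add hn h4)]

end Vale.Agent.P092BF
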