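import Vale.Agent.P092BF.Gam

/-!
P092, block B5: transfer of the masses, walls and strong limits on the target group.
-/

set_option linter.unusedSectionVars false
set_option linter.unusedVariables false

open Filter Topology ContinuousLinearMap MeasureTheory
open scoped InnerProductSpace

namespace Vale.Agent.P092BF

open Vale.Agent.P092CP
open Vale.Agent.P092WN (Sys)
open Vale.Agent.P092NW (Ex Big)
open Vale.Agent.P092.RC (Cm)

variable {G G' K H H₀ : Type} [Group G] [TopologicalSpace G] [IsTopologicalGroup G]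
  [LocallyCompactSpace G] [SecondCountableTopology G] [T2Space G] [MeasurableSpace G] [BorelSpace G]
  [Group G'] [TopologicalSpace G'] [IsTopologicalGroup G'] [LocallyCompactSpace G']
  [SecondCountableTopology G'] [T2Space G'] [MeasurableSpace G'] [BorelSpace G']
  [NormedAddCommGroup K] [InnerProductSpace ℂ K] [CompleteSpace K] {μ : Measure G}
  [μ.IsHaarMeasure] {μ' : Measure G'} [μ'.IsHaarMeasure] {W : Set (K →L[ℂ] K)}
  [NormedAddCommGroup H] [InnerProductSpace ℂ H] [CompleteSpace H] [NormedAddCommGroup H₀]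
  [InnerProductSpace ℂ H₀] {C : Cpl μ μ' W} {S : Sys G C.t.Γ H H₀} {p : H →L[ℂ] K} {z : ℕ → G}
  {len : G' → ℝ} {r : ℕ} {κ : G' → Fin r → ℝ} {l : Filter G} {F : G' → ℝ}

theorem m_split (S : Side μ W) {h : G → ℂ} (hm : Measurable h) {c δ : ℝ} (hδ : 0 ≤ δ) {A : Set G}
    (hA : MeasurableSet A) (h1 : ∀ x, ‖h x‖ ≤ c) (h2 : ∀ x, x ∉ A → ‖h x‖ ≤ δ) (ξ : K) :
    ‖S.m h ξ‖ ≤ δ * ‖ξ‖ + c * ‖S.P A ξ‖ := by
  have hc : 0 ≤ c := (norm_nonneg _).trans (h1 1)
  have b := (Bd.ind hA).smul (c : ℂ)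
  refine (S.norm_m_mono (.of_le hm h1) ((Bd.const (δ : ℂ)).add b) (.of_forall fun x => ?_) ξ).trans ?_
  · by_cases hx : x ∈ A
    · simp only [Pi.add_apply, Pi.smul_apply, Set.indicator_of_mem hx, Pi.one_apply, smul_eq_mul,
        mul_one, ← Complex.ofReal_add, Complex.norm_real]
      exact (h1 x).trans ((le_add_of_nonneg_left hδ).trans (le_abs_self _))
    · simpa [hx] using (h2 x hx).trans (le_abs_self δ)
  · rw [S.m_add (Bd.const _) b, S.m_const, S.m_smul _ (Bd.ind hA), add_apply]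
    refine norm_add_le_of_le ?_ ?_ <;>
      simp [norm_smul, abs_of_nonneg hδ, abs_of_nonneg hc, Side.P]

theorem P_le_add (S : Side μ W) {E A B : Set G} (hE : MeasurableSet E) (hA : MeasurableSet A)
    (hB : MeasurableSet B) (h : E ⊆ A ∪ B) (ξ : K) : ‖S.P E ξ‖ ≤ ‖S.P A ξ‖ + ‖S.P B ξ‖ := by
  refine (S.norm_m_mono (Bd.ind hE) ((Bd.ind hA).add (Bd.ind hB)) (.of_forall fun x => ?_) ξ).trans
    (by rw [S.m_add (Bd.ind hA) (Bd.ind hB)]; exact norm_add_le _ _)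
  by_cases e : x ∈ E
  · by_cases a : x ∈ A <;> by_cases b : x ∈ B
    · simp [a, b, e, one_add_one_eq_two]
    · simp [a, b, e]
    · simp [a, b, e]
    · exact ((h e).elim a b).elim
  · simp [e]

theorem P_r (C : Cpl μ μ' W) {A : Set G'} (hA : MeasurableSet A) : Cp C.s.π (C.t.P (C.t.r ⁻¹' A)) :=
  C.mc _ (Bd.ind (C.t.meas_r hA)) fun x γ => by
    by_cases h : C.t.r x ∈ A <;> simp [h, C.t.r_mul]

theorem small_r (C : Cpl μ μ' W) {A : ℕ → Set G'} (hA : ∀ n, MeasurableSet (A n))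
    (h : ∀ x, ∀ᶠ n in atTop, x ∉ A n) {ε : ℝ} (hε : 0 < ε) :
    ∃ n, ∀ g, ‖C.t.P (C.t.r ⁻¹' A n) (C.s.π g C.t.Ω)‖ ≤ ε := by
  have h1 := C.t.tendsto_m (l := atTop) (F := fun n => (C.t.r ⁻¹' A n).indicator 1) (C := 1)
    (fun n => (Bd.ind (C.t.meas_r (hA n))).meas)
    (fun n x => by by_cases a : x ∈ C.t.r ⁻¹' A n <;> simp [a]) Bd.zero
    (.of_forall fun x => tendsto_const_nhds.congr' ((h (C.t.r x)).mono fun n hn =>
      (Set.indicator_of_notMem (s := C.t.r ⁻¹' A n) hn _).symm)) C.t.Ω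
  rw [C.t.m_zero] at h1
  obtain ⟨n, hn⟩ := (h1.norm.eventually_le_const (show _ < ε by simpa using hε)).exists
  exact ⟨n, fun g => by rw [(P_r C (hA n)).ap, C.s.norm_π]; exact hn⟩

/-- `E'` contains the positions in the lattice at distance at most `R` of `E` -/
def Nb (S : Side μ' W) (len : G' → ℝ) (R : ℝ) (E : Set G') (E' : Set S.Γ) : Prop :=
  ∀ x ∈ E, ∀ s t, len s ≤ R → len t ≤ R → ∀ γ : S.Γ, (γ : G')⁻¹ = s * x * t → γ ∈ E'

theorem fin_le (hT : Tg len κ) {Γ : Subgroup G'} (A : Finset Γ) :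
    ∃ R, 0 ≤ R ∧ ∀ s ∈ A, len s ≤ R :=
  ⟨∑ s ∈ A, len s, Finset.sum_nonneg fun _ _ => hT.nonneg _, fun s hs =>
    Finset.single_le_sum (f := fun s : Γ => len s) (fun _ _ => hT.nonneg _) hs⟩

theorem transfer1 (hL : Lk C S p) (hS : Ex S) (hT : Tg len κ) {ε : ℝ} (hε : 0 < ε) :
    ∃ R N : ℝ, 0 ≤ N ∧ ∀ g E E', MeasurableSet E → Nb C.t len R E E' →
      ‖C.t.P E (C.s.π g C.t.Ω)‖ ≤ ε + N * S.mass E' (S.ζ g) := by
  obtain ⟨A, N, h0, hN⟩ := hL.transfer hS (half_pos hε)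
  obtain ⟨R, r0, hR⟩ := fin_le hT A
  have mA : ∀ n : ℕ, MeasurableSet {d | (n : ℝ) < len d} := fun n =>
    measurableSet_lt measurable_const hT.mlen
  obtain ⟨n, hn⟩ := small_r C mA (fun x => (tendsto_natCast_atTop_atTop.eventually_ge_atTop
    (len x)).mono fun n hn => not_lt.2 hn) (half_pos hε)
  refine ⟨R + n, N, h0, fun g E E' hE h => ?_⟩
  let E₁ : Set C.t.Γ := {δ | ∃ x ∈ E, len (C.t.r x) ≤ n ∧ dg C.t x = δ}
  have e : mg C.t (E₁.indicator 1) = C.t.P (dg C.t ⁻¹' E₁) := congrArg C.t.m (funext fun x => by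
    by_cases a : dg C.t x ∈ E₁ <;> simp [a])
  have h1 := hN g E₁ E' fun s hs t ht γ ⟨x, a, b, c⟩ => h x a (t * (C.t.r x)⁻¹) s
    ((hT.mul _ _).trans (add_le_add (hR t ht) (by rwa [hT.inv])))
    ((hR s hs).trans (le_add_of_nonneg_right n.cast_nonneg)) γ (by
      rw [r_eq, c]; push_cast; group)
  rw [e] at h1
  let _ : MeasurableSpace C.t.Γ := ⊤
  linarith [hn g, P_le_add C.t (B := dg C.t ⁻¹' E₁) hE (C.t.meas_r (mA n))
    (meas_dg C.t id (t := E₁) trivial)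
    (fun x hx => (lt_or_ge (n : ℝ) (len (C.t.r x))).imp id fun a => ⟨x, hx, a, rfl⟩)
    (C.s.π g C.t.Ω)]

/-- **Transfer** of the masses to the trace vector, with a bounded left factor -/
theorem transfer (hL : Lk C S p) (hS : Ex S) (hT : Tg len κ) {Q : Set G} (hQ : IsCompact Q) {ε : ℝ}
    (hε : 0 < ε) : ∃ R N : ℝ, 0 ≤ N ∧ ∀ q ∈ Q, ∀ g E E', MeasurableSet E → Nb C.t len R E E' →
      ‖C.t.P E (C.s.π (q * g) C.t.Ω)‖ ≤ ε + N * S.mass E' (S.ζ g) := by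
  refine hQ.induction_on ⟨0, 0, le_rfl, by simp⟩
    (fun s t hst ⟨R, N, a, b⟩ => ⟨R, N, a, fun q hq => b q (hst hq)⟩)
    (fun s t ⟨R, N, a, b⟩ ⟨R', N', a', b'⟩ => ⟨max R R', N + N', add_nonneg a a',
      fun q hq g E E' hE h => ?_⟩) fun q₀ _ => ?_
  · have h0 : 0 ≤ S.mass E' (S.ζ g) := norm_nonneg _
    rcases hq with hq | hq
    · nlinarith [b q hq g E E' hE fun x hx s t c d =>
        h x hx s t (le_max_of_le_left c) (le_max_of_le_left d)]
    · nlinarith [b' q hq g E E' hE fun x hx s t c d =>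
        h x hx s t (le_max_of_le_right c) (le_max_of_le_right d)]
  have hu := fun q => C.M_adj (C.u_M q)
  have h3 : 0 < ε / 3 := by positivity
  obtain ⟨A, hA⟩ := ((tendsto_iff_norm_sub_tendsto_zero.1
    (C.t.hasSum_fc (adjoint (C.u q₀⁻¹)))).eventually_le_const h3).exists
  obtain ⟨δ, d1, d2⟩ := exists_pos_mul_lt h3 A.card
  obtain ⟨R, N, h0, hN⟩ := transfer1 hL hS hT d1
  obtain ⟨R', r0, hR⟩ := fin_le hT A
  refine ⟨_, nhdsWithin_le_nhds ((tendsto_iff_norm_sub_tendsto_zero.1 (((C.cont_u C.t.Ω).comp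
    continuous_inv).tendsto q₀)).eventually_le_const h3), R' + R, A.card * N, by positivity,
    fun q hq g E E' hE h => ?_⟩
  have mE : ∀ γ : C.t.Γ, MeasurableSet ((fun x => x * (γ : G')⁻¹) ⁻¹' E) := fun γ =>
    measurable_mul_const _ hE
  have e1 : ‖C.t.P E (C.s.π (q * g) C.t.Ω)‖ = ‖C.t.P E (adjoint (C.u q⁻¹) (C.s.π g C.t.Ω))‖ := by
    have := C.σ_m q⁻¹ (Bd.ind hE)
    rw [inv_inv] at this
    rw [← C.s.norm_π q⁻¹, ← C.norm_u q⁻¹ (C.t.P E _), ← pi_ap]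
    exact congrArg _ (ap_eq this _)
  have hM := Side.M.sum A fun γ _ => C.t.M_fc (γ := γ) (hu q₀⁻¹)
  have e2 := C.norm_s_Ω (hM.sub (hu q₀⁻¹)) g
  have e3 := C.norm_s_Ω (C.M_adj ((C.u_M q⁻¹).sub (C.u_M q₀⁻¹))) g
  rw [C.norm_adj_Ω ((C.u_M _).sub (C.u_M _)), map_sub] at e3
  rw [← sum_apply] at hA
  have e4 : ‖C.t.P E ((∑ γ ∈ A, C.t.fc γ (adjoint (C.u q₀⁻¹))) (C.s.π g C.t.Ω))‖ ≤
      A.card * (δ + N * S.mass E' (S.ζ g)) := by
    rw [sum_apply, map_sum, ← nsmul_eq_mul]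
    refine (norm_sum_le _ _).trans (Finset.sum_le_card_nsmul _ _ _ fun γ hγ => ?_)
    have e5 := (C.t.deg_fc (γ := γ) (hu q₀⁻¹).1).P (mE γ)
    rw [← Set.preimage_comp, show ((fun x : G' => x * (γ : G')⁻¹) ∘ fun x => x * γ) = id from
      funext fun x => mul_inv_cancel_right _ _, Set.preimage_id] at e5
    have e6 : ‖C.t.fc γ (adjoint (C.u q₀⁻¹))‖ ≤ 1 := (C.t.norm_fc_le _ _).trans
      (opNorm_le_bound _ zero_le_one fun ξ => by rw [C.norm_adj_u, one_mul])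
    have e7 := hN g _ E' (mE γ) fun x hx s t a b δ e => h _ hx s (γ * t) (by linarith)
      ((hT.mul _ _).trans (add_le_add (hR γ hγ) b)) δ (by rw [e]; group)
    rw [← mul_ap (C.t.P E), ← e5, mul_ap]
    exact (le_of_opNorm_le _ e6 _).trans ((one_mul _).trans_le e7)
  have e6 := fun ξ => (C.t.P E).le_of_opNorm_le (C.t.norm_P_le hE) ξ
  have e7 := (e6 _).trans ((one_mul _).trans_le (e3.trans_le hq))
  have e8 := (e6 _).trans ((one_mul _).trans_le (e2.trans_le hA))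
  rw [sub_apply, map_sub] at e7 e8
  rw [norm_sub_rev] at e8
  rw [e1]
  linarith [(norm_le_norm_sub_add _ _).trans (add_le_add e7 ((norm_le_norm_sub_add _ _).trans
    (add_le_add e8 e4)))]

theorem meas_Far (hT : Tg len κ) (τ : ℝ) : MeasurableSet (Far κ τ) := by
  rw [Far, Set.ofPred_forall]
  exact MeasurableSet.iInter fun i =>
    measurableSet_le measurable_const ((measurable_pi_apply i).comp hT.mκ)

theorem Far_anti {τ τ' : ℝ} (h : τ ≤ τ') : Far κ τ' ⊆ Far κ τ := fun _ hx i => h.trans (hx i)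

theorem far_mul (hT : Tg len κ) : ∃ c : ℝ, 0 ≤ c ∧ ∀ τ R x s t, len s ≤ R → len t ≤ R →
    x ∈ Far κ (τ + c * R) → s * x * t ∈ Far κ τ := by
  obtain ⟨c, h0, hc⟩ := hT.lip
  exact ⟨2 * c, by positivity, fun τ R x s t a b h i => by
    nlinarith [h i, (abs_le.1 (hc s x t i)).1]⟩

theorem far_left (hT : Tg len κ) (k : G') : ∃ a, 0 ≤ a ∧ ∀ τ, ∀ x ∈ Far κ (τ + a), k * x ∈ Far κ τ :=
  let ⟨c, h0, hc⟩ := far_mul hT
  ⟨c * len k, mul_nonneg h0 (hT.nonneg k), fun τ x hx =>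
    mul_one (k * x) ▸ hc τ _ x k 1 le_rfl (hT.one ▸ hT.nonneg k) hx⟩

theorem conj_k (C : Cpl μ μ' W) {h : G' → ℂ} (hb : Bd h) (g : G) (k : G') :
    (C.s.π g⁻¹ * C.t.m h * C.s.π g⁻¹⁻¹) (C.t.π k C.t.Ω) =
      C.t.π k (C.s.π g⁻¹ (C.t.m (fun x => h (k * x)) (C.s.π g C.t.Ω))) := by
  have h1 := C.t.π_m (hb.comp (measurable_const_mul k)) k
  simp only [mul_inv_cancel_left] at h1
  have c : ∀ g ξ, C.s.π g (C.t.π k ξ) = C.t.π k (C.s.π g ξ) := fun g ξ => ap_eq (C.comm g k) ξ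
  rw [inv_inv, mul_ap, mul_ap, c g, ← c g⁻¹]
  exact congrArg _ (ap_eq h1 _).symm

/-- the position leaves all the walls -/
def Wall (C : Cpl μ μ' W) (l : Filter G) (κ : G' → Fin r → ℝ) : Prop :=
  ∀ τ, SF C l (C.t.P (Far κ τ)ᶜ) 0

theorem small_of {ι : Type} {U : Filter ι} (hT : Tg len κ) {v : ι → K} {b : ℝ} (hv : ∀ n, ‖v n‖ = b)
    (hw : ∀ τ, Tendsto (fun n => C.t.P (Far κ τ)ᶜ (v n)) U (𝓝 0)) {h : G' → ℂ} (hb : Bd h)
    (hs : ∀ ε : ℝ, 0 < ε → ∃ τ, ∀ x ∈ Far κ τ, ‖h x‖ ≤ ε) :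
    Tendsto (fun n => C.t.m h (v n)) U (𝓝 0) := by
  refine Metric.nhds_basis_closedBall.tendsto_right_iff.2 fun ε hε => ?_
  obtain ⟨c, hc⟩ := hb.bdd
  obtain ⟨δ, h1, h2⟩ := exists_pos_mul_lt (half_pos hε) b
  obtain ⟨τ, hτ⟩ := hs δ h1
  filter_upwards [((hw τ).norm.const_mul c).eventually_le_const
    (show _ < ε / 2 by simpa using hε)] with n hn
  have := m_split C.t hb.meas h1.le (meas_Far hT τ).compl hc (fun x hx => hτ x (not_not.1 hx)) (v n)
  rw [hv] at this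
  exact mem_closedBall_zero_iff.2 (by linarith)

theorem Wall.small (hw : Wall C l κ) (hT : Tg len κ) {h : G' → ℂ} (hb : Bd h)
    (hs : ∀ ε : ℝ, 0 < ε → ∃ τ, ∀ x ∈ Far κ τ, ‖h x‖ ≤ ε) : SF C l (C.t.m h) 0 := fun ξ => by
  simpa using small_of hT (fun g => C.s.norm_π g ξ) (fun τ => by simpa using hw τ ξ) hb hs

theorem Wall.congr (hw : Wall C l κ) (hT : Tg len κ) {h h' : G' → ℂ} (hb : Bd h) (hb' : Bd h')
    (hs : ∀ ε : ℝ, 0 < ε → ∃ τ, ∀ x ∈ Far κ τ, ‖h' x - h x‖ ≤ ε) {e : K →L[ℂ] K}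
    (he : SF C l (C.t.m h) e) : SF C l (C.t.m h') e := by
  simpa only [C.t.m_sub hb' hb, sub_add_cancel, zero_add] using (hw.small hT (hb'.sub hb) hs).add he

theorem Hg.bd (h : Hg len κ F) : Bd fun x => (F x : ℂ) := Bd.ofReal h.meas h.le

theorem Hg.left (h : Hg len κ F) (hT : Tg len κ) (k : G') : Hg len κ fun x => F (k * x) := by
  obtain ⟨a, a0, ha⟩ := far_left hT k
  obtain ⟨D, c, hc, hD⟩ := h.slow
  refine ⟨h.meas.comp (measurable_const_mul k), fun _ => h.le _, ⟨D + c * a, c, hc,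
    fun J τ x y b d e => ?_⟩, fun ε hε => ?_⟩
  · rw [← mul_assoc]
    exact (hD J (τ - a) _ y b d (ha _ x (by rwa [sub_add_cancel]))).trans
      (Real.exp_le_exp.2 (by nlinarith [mul_nonneg hc.le a0]))
  · obtain ⟨O, hO, τ, hτ⟩ := h.uc ε hε
    refine ⟨(fun u => k * u * k⁻¹) ⁻¹' O, ContinuousAt.preimage_mem_nhds (by fun_prop)
      (by simpa using hO), τ + a, fun u hu x hx => ?_⟩
    simpa [mul_assoc] using hτ _ hu _ (ha τ x hx)

theorem Hg.slow_lat (h : Hg len κ F) (hT : Tg len κ) (Γ : Subgroup G') :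
    Slow (fun γ : Γ => len γ) (fun i γ => κ (γ : G')⁻¹ i) fun γ => F (γ : G')⁻¹ :=
  let ⟨D, c, hc, hD⟩ := h.slow
  ⟨fun _ => h.le _, D, c, hc, fun J τ s γ a b d => by
    simpa using hD J τ (γ : G')⁻¹ (s : G')⁻¹ a (by rwa [hT.inv]) fun i => d i (Finset.mem_univ i)⟩

variable (hL : Lk C S p) (hT : Tg len κ)
  (hW : Wk S (fun γ : C.t.Γ => len γ) (fun i γ => κ (γ : G')⁻¹ i) z)
include hL hT hW

theorem wall_Ω (τ : ℝ) :
    Tendsto (fun n => C.t.P (Far κ τ)ᶜ (C.s.π (z n) C.t.Ω)) atTop (𝓝 0) := by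
  refine Metric.nhds_basis_closedBall.tendsto_right_iff.2 fun ε hε => ?_
  obtain ⟨R, N, -, hN⟩ := transfer1 hL hW.ex hT (half_pos hε)
  obtain ⟨c, -, hc⟩ := far_mul hT
  filter_upwards [((hW.wall (τ + c * R)).const_mul N).eventually_le_const
    (show _ < ε / 2 by simpa using hε)] with n hn
  refine mem_closedBall_zero_iff.2 (le_trans (hN _ _ _ (meas_Far hT τ).compl ?_)
    ((add_le_add_right hn _).trans (add_halves ε).le))
  refine fun x hx s t a b γ e hγ => hx ?_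
  have := hc τ R _ s⁻¹ t⁻¹ (by rwa [hT.inv]) (by rwa [hT.inv]) fun i => hγ i (Finset.mem_univ i)
  simpa [e, mul_assoc] using this

theorem wall_map : Wall C (map z atTop) κ := fun τ => by
  have b := Bd.ind (meas_Far hT τ).compl
  refine SF.of_Ω (C.t.cm_m b) cm_zero fun k => ?_
  obtain ⟨a, -, ha⟩ := far_left hT k
  have h1 := small_of hT (fun n => C.s.norm_π _ _) (wall_Ω hL hT hW)
    (b.comp (measurable_const_mul k)) fun ε hε => ⟨τ + a, fun x hx => by simp [ha τ x hx, hε.le]⟩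
  exact tendsto_map' ((tendsto_op (tendsto_π h1 fun n => (z n)⁻¹) (C.t.π k)).congr fun n =>
    (conj_k C b (z n) k).symm)

theorem wall_pf (hm : Mix C z) : Wall C (pf z) κ := fun τ => by
  have b := Bd.ind (meas_Far hT τ).compl
  obtain ⟨c, -, hc⟩ := far_mul hT
  refine sl_iff.1 (sl_of hm b fun γ => (wall_map hL hT hW).small hT
    (b.comp (measurable_mul_const _)) fun ε hε => ⟨τ + c * len γ, fun x hx => ?_⟩)
  have := hc τ _ x 1 γ (hT.one ▸ hT.nonneg _) le_rfl hx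
  rw [one_mul] at this
  simp [this, hε.le]

theorem hg_Ω (hm : Mix C z) (h : Hg len κ F) : ∃ η, Tendsto (fun n => C.s.π (z n)⁻¹
    (C.t.m (fun x => (F x : ℂ)) (C.s.π (z n) C.t.Ω))) atTop (𝓝 η) := by
  classical
  refine conv_of_approx fun ε hε => ?_
  have h8 : 0 < ε / 8 := by positivity
  obtain ⟨O', hO', τ, hτ⟩ := h.uc _ h8
  obtain ⟨O, o1, o2, o3⟩ := mem_nhds_iff.1 hO'
  obtain ⟨d, j, mj, hj⟩ : ∃ (d : ℕ → G') (j : G' → ℕ), Measurable j ∧ ∀ x, d (j x) * x⁻¹ ∈ O := by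
    have hex : ∀ x : G', ∃ j, TopologicalSpace.denseSeq G' j * x⁻¹ ∈ O := fun x =>
      (TopologicalSpace.denseRange_denseSeq G').exists_mem_open
        (o2.preimage (continuous_mul_const x⁻¹)) ⟨x, by simpa using o3⟩
    exact ⟨_, _, measurable_find hex fun j => (o2.preimage (by fun_prop : Continuous fun x : G' =>
      TopologicalSpace.denseSeq G' j * x⁻¹)).measurableSet, fun x => Nat.find_spec (hex x)⟩
  have mA : ∀ n, MeasurableSet (j ⁻¹' Set.Ici n) := fun n => mj trivial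
  have mB : ∀ n, MeasurableSet (j ⁻¹' {n}) := fun n => mj trivial
  obtain ⟨N, hN⟩ := small_r C mA (fun x => (eventually_gt_atTop _).mono fun n hn => not_le.2 hn) h8
  choose η hη using fun i => hL.lim hW hm ((h.left hT (d i)).slow_lat hT C.t.Γ)
  have b0 := fun i => bd_dg C.t (f := fun γ => F (d i * (γ : G')⁻¹)) fun _ => h.le _
  have b := fun i => (Bd.ind (C.t.meas_r (mB i))).mul (b0 i)
  have h1 := tendsto_finsetSum (Finset.range N) fun i _ =>
    ((C.t.P (C.t.r ⁻¹' (j ⁻¹' {i}))).continuous.tendsto _).comp (hη i)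
  refine ⟨_, ((tendsto_iff_norm_sub_tendsto_zero.1 h1).eventually_le_const h8).mp
    (((wall_Ω hL hT hW τ).norm.eventually_le_const (show _ < ε / 8 by simpa using hε)).mono
      fun n c1 c2 => (norm_sub_le_norm_sub_add_norm_sub _ _ _).trans
        ((add_le_add ?_ c2).trans (show 5 * (ε / 8) + ε / 8 ≤ ε by linarith)))⟩
  have bs := Bd.sum (Finset.range N) fun i _ => b i
  have e1 := (ap_eq (C.t.m_sum (Finset.range N) fun i _ => b i) (C.s.π (z n) C.t.Ω)).trans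
    ((sum_apply _ _ _).trans (Finset.sum_congr rfl fun i _ =>
      ap_eq (C.t.m_mul (Bd.ind (C.t.meas_r (mB i))) (b0 i)) _))
  simp only [Function.comp, fun i => (P_r C (mB i)).ap]
  rw [← map_sum, ← map_sub, C.s.norm_π]
  refine le_trans (le_of_eq (congrArg (fun v => ‖_ - v‖) e1.symm)) ?_
  rw [← sub_apply, ← C.t.m_sub h.bd bs]
  have e2 : ∀ x, (∑ i ∈ Finset.range N, ((C.t.r ⁻¹' (j ⁻¹' {i})).indicator 1) *
      fun x => (F (d i * (dg C.t x : G')⁻¹) : ℂ) : G' → ℂ) x =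
      if j (C.t.r x) < N then (F (d (j (C.t.r x)) * (C.t.r x)⁻¹ * x) : ℂ) else 0 := fun x => by
    simp [Set.indicator_apply, r_eq, mul_assoc]
  have mU := (C.t.meas_r (mA N)).union (meas_Far hT τ).compl
  refine (m_split C.t (h.bd.sub bs).meas (c := 2) h8.le mU (fun x => ?_) (fun x hx => ?_) _).trans ?_
  · rw [Pi.sub_apply, e2]
    refine (norm_sub_le _ _).trans ?_
    split_ifs
    · simpa [one_add_one_eq_two] using add_le_add (h.le _) (h.le _)
    · simpa using (h.le x).trans one_le_two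
  · rw [Set.mem_union, not_or] at hx
    rw [Pi.sub_apply, e2, if_pos (not_le.1 hx.1), ← Complex.ofReal_sub, Complex.norm_real,
      Real.norm_eq_abs, abs_sub_comm]
    exact hτ _ (o1 (hj _)) x (not_not.1 hx.2)
  · rw [C.s.norm_π, C.t.nΩ]
    linarith [hN (z n), P_le_add C.t mU (C.t.meas_r (mA N)) (meas_Far hT τ).compl subset_rfl
      (C.s.π (z n) C.t.Ω)]

/-- **Strong limits** of the functions which look like functions on the boundary -/
theorem exists_sl (hm : Mix C z) (h : Hg len κ F) :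
    ∃ e, SF C (pf z) (C.t.m fun x => (F x : ℂ)) e := by
  obtain ⟨e, he⟩ := SF.exists_of_Ω (l := map z atTop) (C.t.cm_m h.bd) fun k => by
    obtain ⟨η, hη⟩ := hg_Ω hL hT hW hm (h.left hT k)
    exact ⟨_, tendsto_map' ((((C.t.π k).continuous.tendsto _).comp hη).congr fun n =>
      (conj_k C h.bd (z n) k).symm)⟩
  refine ⟨e, sl_iff.1 (sl_of hm h.bd fun γ => (wall_map hL hT hW).congr hT h.bd
    (h.bd.comp (measurable_mul_const _)) (fun ε hε => ?_) he)⟩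
  obtain ⟨D, c, hc, hD⟩ := h.slow
  obtain ⟨τ, hτ⟩ := ev_exp (D * max 1 (len γ)) hc hε
  refine ⟨τ, fun x hx => ?_⟩
  rw [← Complex.ofReal_sub, Complex.norm_real]
  exact (hD _ τ x γ (le_max_left _ _) (le_max_right _ _) hx).trans hτ

end Vale.Agent.P092BF
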