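import Vale.Agent.P092BF.Bnd

/-!
P092, block B5: windows along a filter which defines the boundary calculus.
-/

set_option linter.unusedSectionVars false
set_option linter.unusedVariables false

open Filter Topology ContinuousLinearMap MeasureTheory ProbabilityTheory
open scoped InnerProductSpace CompactlySupported

namespace Vale.Agent.P092BF

open Vale.Agent.P092CP Vale.Agent.P092RD Vale.Agent.P092TH
open Vale.Agent.P092.RC (Cm)

variable {G G' K Y Z : Type} [Group G] [TopologicalSpace G] [IsTopologicalGroup G]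
  [LocallyCompactSpace G] [SecondCountableTopology G] [T2Space G] [MeasurableSpace G] [BorelSpace G]
  [Group G'] [TopologicalSpace G'] [IsTopologicalGroup G'] [LocallyCompactSpace G']
  [SecondCountableTopology G'] [T2Space G'] [MeasurableSpace G'] [BorelSpace G']
  [NormedAddCommGroup K] [InnerProductSpace ℂ K] [CompleteSpace K] {μ : Measure G}
  [μ.IsHaarMeasure] {μ' : Measure G'} [μ'.IsHaarMeasure] {W : Set (K →L[ℂ] K)} {C : Cpl μ μ' W}
  {z : ℕ → G} {len : G' → ℝ} {r : ℕ} {κ : G' → Fin r → ℝ} {l : Filter G} {fl : G' → Y} {ι : Type}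
  {U : Ultrafilter ι} {ν : ι → Measure G} {x y : ι → K →L[ℂ] K} {T a e : K →L[ℂ] K}

/-- the measures `ν n` are carried by the inverse of the filter `l` -/
def Car (U : Filter ι) (ν : ι → Measure G) (l : Filter G) : Prop :=
  ∀ s ∈ l, ∀ᶠ n in U, ∀ᵐ g ∂ν n, g⁻¹ ∈ s

theorem car_un {U : Filter ι} {B : ι → Set G} (hB : ∀ n, MeasurableSet (B n)) {w : ι → G}
    (h : ∀ s ∈ l, ∀ᶠ n in U, ∀ u ∈ B n, (w n * u)⁻¹ ∈ s) :
    Car U (fun n => un μ (B n) (w n)) l := fun s hs => (h s hs).mono fun n hn =>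
  (MeasurableEquiv.mulLeft (w n)).measurableEmbedding.ae_map_iff.2 ((ae_cond_mem (hB n)).mono hn)

theorem SF.right (h : SF C l T e) (p : G) :
    SF C (l.map (· * p⁻¹)) T (C.s.π p * e * C.s.π p⁻¹) := fun ξ =>
  tendsto_map' ((h (C.s.π p⁻¹ ξ)).congr fun g => by
    simp only [Function.comp, ← pi_ap, mul_ap, pi_inv_ap])

variable [∀ n, IsProbabilityMeasure (ν n)]

theorem Car.near (hc : Car U ν l) (h : IsL C.s U ν x T) (hn : ∀ η (ε : ℝ), 0 < ε →
    ∀ᶠ g in l, ∀ n, ‖y n (C.s.π g η) - x n (C.s.π g (e η))‖ ≤ ε) : IsL C.s U ν y (T * e) := by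
  refine isL_iff.2 fun ξ η => (isL_iff.1 h ξ (e η)).congr_dist
    (Metric.nhds_basis_closedBall.tendsto_right_iff.2 fun ε hε => ?_)
  obtain ⟨δ, d0, d1⟩ := exists_pos_mul_lt hε ‖ξ‖
  filter_upwards [hc _ (hn η δ d0)] with n hn
  rw [mem_closedBall_zero_iff, Real.norm_of_nonneg dist_nonneg, dist_comm, dist_eq_norm,
    ← integral_sub (int_co _ _ _ ξ η) (int_co _ _ _ ξ _)]
  refine (norm_integral_le_of_norm_le_const (C := ε) (hn.mono fun g hg => ?_)).trans (by simp)
  rw [← inner_sub_right]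
  refine (norm_inner_le_norm _ _).trans ?_
  rw [C.s.norm_π]
  exact (mul_le_mul_of_nonneg_left (hg n) (norm_nonneg _)).trans d1.le

theorem Car.mul (hc : Car U ν l) (h : IsL C.s U ν x T) {c : ℝ} (hx : ∀ n, ‖x n‖ ≤ c)
    (ha : SF C l a e) : IsL C.s U ν (fun n => x n * a) (T * e) := hc.near h fun η ε hε => by
  obtain ⟨δ, d0, d1⟩ := exists_pos_mul_lt hε |c|
  filter_upwards [sf_iff.1 ha η δ d0] with g hg n
  rw [mul_ap, ← map_sub]
  exact ((x n).le_of_opNorm_le_of_le ((hx n).trans (le_abs_self c)) hg).trans d1.le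

theorem Car.isL (hc : Car U ν l) (ha : SF C l a e) : IsL C.s U ν (fun _ => a) e := by
  simpa only [one_mul] using hc.mul isL_one (fun _ => le_rfl) ha

/-- functions which agree far from the walls have the same limit -/
theorem Car.congr (hc : Car U ν l) (hw : Wall C l κ) (hT : Tg len κ) {f f' : ι → G' → ℂ}
    (hf : ∀ n, Bd (f n)) (hf' : ∀ n, Bd (f' n)) {c : ℝ} (h1 : ∀ n x, ‖f' n x - f n x‖ ≤ c)
    (h2 : ∀ ε : ℝ, 0 < ε → ∃ τ, ∀ n, ∀ x ∈ Far κ τ, ‖f' n x - f n x‖ ≤ ε)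
    (h : IsL C.s U ν (fun n => C.t.m (f n)) T) : IsL C.s U ν (fun n => C.t.m (f' n)) T := by
  refine mul_one T ▸ hc.near h fun η ε hε => ?_
  obtain ⟨δ, d0, d1⟩ := exists_pos_mul_lt hε (‖η‖ + |c|)
  obtain ⟨τ, hτ⟩ := h2 δ d0
  filter_upwards [sf_iff.1 (hw τ) η δ d0] with g hg n
  have := m_split C.t ((hf' n).sub (hf n)).meas d0.le (meas_Far hT τ).compl
    (fun x => (h1 n x).trans (le_abs_self c)) (fun x hx => hτ n x (not_not.1 hx)) (C.s.π g η)
  rw [C.t.m_sub (hf' n) (hf n), C.s.norm_π] at this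
  rw [zero_apply, map_zero, sub_zero] at hg
  exact this.trans (by nlinarith [abs_nonneg c])

variable [MetricSpace Y] [CompactSpace Y] [MeasurableSpace Y] [BorelSpace Y] [MulAction G' Y]
  [ContinuousSMul G' Y] {E : POM Y K} [TopologicalSpace Z] [MeasurableSpace Z] [BorelSpace Z]
  [LocallyCompactSpace Z] [T2Space Z] [SecondCountableTopology Z] [MulAction G' Z]
  [ContinuousSMul G' Z] {V : Set G'} {dir : Z → Y} {ζ : ι → Z} {θ : POM Z K}

/-- the product with a function of the direction -/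
def ccD (hd : Continuous dir) (φ : C_c(Y, ℝ)) (F : C_c(Z, ℝ)) : C_c(Z, ℝ) :=
  ⟨⟨fun z => φ (dir z) * F z, (φ.continuous.comp hd).mul F.continuous⟩, F.hasCompactSupport.mul_left⟩

theorem wf_near (hA : Avg μ' κ fl) (hV : Bp μ' V) (hd : Continuous dir)
    (he : ∀ (k : G') z, dir (k • z) = k • dir z) (φ : C_c(Y, ℝ)) (F : C_c(Z, ℝ)) {ε : ℝ}
    (hε : 0 < ε) : ∃ τ, ∀ ζ, ∀ x ∈ Far κ τ,
      |wf μ' V ζ (ccD hd φ F) x - wf μ' V ζ F x * φ (fl x)| ≤ ε := by
  have := hV.prob
  obtain ⟨c, c0, hc⟩ := cc_bdd F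
  obtain ⟨b, b0, hb⟩ := cc_bdd φ
  obtain ⟨δ, d0, d1⟩ := exists_pos_mul_lt hε (c + (b + b) * c)
  obtain ⟨δ', e0, e1⟩ := Metric.uniformContinuous_iff.1
    (CompactSpace.uniformContinuous_of_continuous φ.continuous) δ d0
  have v0 := ENNReal.toReal_pos hV.pos hV.cpt.measure_ne_top
  obtain ⟨τ, hτ⟩ := hA V hV.cpt δ' _ e0 (mul_pos v0 d0)
  refine ⟨τ, fun ζ x hx => ?_⟩
  have mD : MeasurableSet {u | δ' ≤ dist ((x * u) • dir ζ) (fl x)} :=
    (isClosed_le continuous_const (by fun_prop)).measurableSet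
  have h1 : μ'[|V].real {u | δ' ≤ dist ((x * u) • dir ζ) (fl x)} ≤ δ := by
    rw [Measure.real, cond_apply hV.cpt.measurableSet, ENNReal.toReal_mul, ENNReal.toReal_inv,
      inv_mul_le_iff₀ v0]
    exact ENNReal.toReal_le_of_le_ofReal (mul_pos v0 d0).le (hτ x hx _)
  have i1 := (integrable_const (μ := μ'[|V]) ((b + b) * c)).indicator mD
  rw [wf, wf, ← integral_mul_const, ← integral_sub (int_wf hV _ x) ((int_wf hV F x).mul_const _)]
  refine (norm_integral_le_of_norm_le (G := ℝ) ((integrable_const (δ * c)).add i1)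
    (.of_forall fun u => ?_)).trans ?_
  · change |φ (dir _) * F _ - _| ≤ _ + _
    rw [mul_comm (F _), ← sub_mul, abs_mul, he]
    by_cases a : δ' ≤ dist ((x * u) • dir ζ) (fl x)
    · rw [Set.indicator_of_mem (by exact a)]
      exact le_add_of_nonneg_of_le (by positivity) (mul_le_mul ((abs_sub _ _).trans
        (add_le_add (hb _) (hb _))) (hc _) (abs_nonneg _) (by positivity))
    · rw [Set.indicator_of_notMem (by exact a), add_zero]
      exact mul_le_mul (e1 (not_le.1 a)).le (hc _) (abs_nonneg _) d0.le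
  · rw [integral_add' (integrable_const _) i1, integral_indicator_const _ mD]
    simp only [integral_const, probReal_univ, smul_eq_mul, one_mul]
    nlinarith [mul_nonneg (add_nonneg b0 b0) c0]

namespace BF

variable (h : BF C l κ fl E) (hF : Fg len κ fl) (hT : Tg len κ) (hA : Avg μ' κ fl) (hc : Car U ν l)
  (hV : Bp μ' V)
include h hF hT hA hc hV

theorem win (hd : Continuous dir) (he : ∀ (k : G') z, dir (k • z) = k • dir z) (φ : C_c(Y, ℝ))
    (F : C_c(Z, ℝ)) (h1 : IsL C.s U ν (fun n => C.t.m fun x => (wf μ' V (ζ n) F x : ℂ)) T) :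
    IsL C.s U ν (fun n => C.t.m fun x => (wf μ' V (ζ n) (ccD hd φ F) x : ℂ))
      (T * E.f fun y => (φ y : ℂ)) := by
  obtain ⟨c, -, h2⟩ := norm_wm C hV F
  have h3 := hc.mul h1 (fun n => h2 _) (h.cc φ)
  have b := (bd_cc φ).comp hF.meas
  simp only [← C.t.m_mul (bd_wf hV F) b] at h3
  obtain ⟨c₁, -, a1⟩ := cc_bdd F
  obtain ⟨c₂, -, a2⟩ := cc_bdd φ
  obtain ⟨c₃, -, a3⟩ := cc_bdd (ccD hd φ F)
  refine hc.congr h.wall hT (fun n => (bd_wf hV F).mul b) (fun n => bd_wf hV _)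
    (c := c₃ + c₁ * c₂) (fun n x => ?_) (fun ε hε => (wf_near hA hV hd he φ F hε).imp
      fun τ hτ n x hx => ?_) h3 <;>
    rw [Pi.mul_apply, ← Complex.ofReal_mul, ← Complex.ofReal_sub, Complex.norm_real]
  · refine (abs_sub _ _).trans (add_le_add (abs_wf hV a3 x) ?_)
    rw [abs_mul]
    exact mul_le_mul (abs_wf hV a1 x) (a2 _) (abs_nonneg _) ((abs_nonneg _).trans (a1 (ζ n)))
  · exact hτ _ x hx

/-- the boundary calculus is the limit of the windows on the boundary, for all centres -/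
theorem lm (y : ι → Y) : Lm C U ν V y E := fun φ => by
  have := hV.prob
  have := h.win hF hT hA hc hV continuous_id (fun _ _ => rfl) φ (ζ := y) (T := 1)
    ⟨1, .of_compactSpace _⟩ (by simpa [wf, C.t.m_const] using isL_one)
  simpa [wf, ccD] using this

/-- **The module property** -/
theorem mod (hd : Continuous dir) (he : ∀ (k : G') z, dir (k • z) = k • dir z)
    (hθ : Lm C U ν V ζ θ) (φ : Y → ℂ) (F : Z → ℂ) (hφ : Bd φ) (hb : Bd F) :
    θ.f (φ ∘ dir * F) = E.f φ * θ.f F := by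
  have b := fun φ (hφ : Bd φ) => (bd_comp hφ hd.measurable).mul hb.star
  have cls : Cls fun φ => θ.f (star F) * E.f φ = θ.f (φ ∘ dir * star F) := by
    refine ⟨fun c φ hφ e => ?_, fun φ φ' hφ hφ' e e' => ?_, fun Φ φ c hΦ hφ hc hl e => ?_⟩
    · rw [E.smul c hφ, mul_smul_comm, e, ← θ.smul c (b φ hφ), ← smul_mul_assoc]; rfl
    · rw [E.add hφ hφ', mul_add, e, e', ← θ.add (b φ hφ) (b φ' hφ'), ← add_mul]; rfl
    · obtain ⟨d, d0, hd⟩ := hb.star.nonneg
      refine ContinuousLinearMap.ext fun ξ => tendsto_nhds_unique (((θ.f _).continuous.tendsto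
        _).comp (E.tendsto_strong hΦ hφ hc hl ξ)) ((θ.tendsto_strong (C := c * d)
          (fun n => b _ (hΦ n)) (b φ hφ) (fun n z => ?_) (fun z => (hl _).mul_const _) ξ).congr
            fun n => (ap_eq (e n) ξ).symm)
      rw [Pi.mul_apply, norm_mul]
      exact mul_le_mul (hc n _) (hd z) (norm_nonneg _) ((norm_nonneg _).trans (hc n (dir z)))
  have := congrArg star (cls.of_cc (fun g => ?_) _ hφ.star)
  · rw [star_mul, E.star_f hφ.star, θ.star_f hb.star, θ.star_f (b _ hφ.star), star_mul',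
      star_star, star_star] at this
    rw [this]
    exact congrArg (fun f => θ.f (f * F)) (funext fun z => (star_star _).symm)
  have := (POM.cls_eq θ θ (.id ℂ K) (E.f fun y => (g y : ℂ)) (.id ℂ K) (.id ℂ K) bd_one
    (bd_comp (bd_cc g) hd.measurable)).of_cc (fun F => ?_) _ hb.star
  · simpa [mul_def] using this
  have := (h.win hF hT hA hc hV hd he g F (hθ F)).unique (hθ (ccD hd g F))
  simpa [mul_def, ccD, Pi.mul_def] using this

end BF

end Vale.Agent.P092BF
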